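import Vale.Agent.P145.H821.Outer

/-!
Bounded open sets with exterior continua of a fixed size at all boundary points.
-/

namespace Vale.Agent.P145.H821

open Set Filter Topology Metric Bornology

variable {D : Set (ℝ × ℝ)}

/-- A bounded open set `D`, multiply connected or not, which is regular from outside: for some
`R > 0` every boundary point is a limit of points of connected sets of diameter at least `R` in the
complement of the closure of `D`. -/
structure Regular (D : Set (ℝ × ℝ)) : Prop where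
  isOpen : IsOpen D
  isBounded : IsBounded D
  exterior : ∃ R : ℝ, 0 < R ∧ ∀ z ∈ frontier D, ∀ ε : ℝ, 0 < ε → ∃ S : Set (ℝ × ℝ),
    IsPreconnected S ∧ S ⊆ (closure D)ᶜ ∧ (∃ y ∈ S, dist z y < ε) ∧ ∃ y ∈ S, R ≤ dist z y

theorem path_ext {S : Set (ℝ × ℝ)} (hS : IsPreconnected S) (hSD : S ⊆ (closure D)ᶜ)
    {y y' : ℝ × ℝ} (hy : y ∈ S) (hy' : y' ∈ S) : ∃ δ : ℝ, 0 < δ ∧ ∃ K : Set (ℝ × ℝ),
      IsPreconnected K ∧ y ∈ K ∧ y' ∈ K ∧ ∀ z ∈ K, z ∉ thickening δ D := by
  set C := connectedComponentIn (closure D)ᶜ y with hC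
  have hyC : y ∈ C := mem_connectedComponentIn (hSD hy)
  have hy'C : y' ∈ C := hS.subset_connectedComponentIn hy hSD hy'
  have hCo : IsOpen C := isClosed_closure.isOpen_compl.connectedComponentIn
  have hpc : IsPathConnected C := hCo.isConnected_iff_isPathConnected.1
    ⟨⟨y, hyC⟩, isPreconnected_connectedComponentIn⟩
  have hj := hpc.joinedIn y hyC y' hy'C
  have hKc : IsCompact (range hj.somePath) := isCompact_range hj.somePath.continuous
  have hKC : range hj.somePath ⊆ (closure D)ᶜ := by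
    rintro _ ⟨t, rfl⟩
    exact connectedComponentIn_subset _ _ (hj.somePath_mem t)
  obtain ⟨δ, hδ, hδK⟩ := hKc.exists_thickening_subset_open isClosed_closure.isOpen_compl hKC
  refine ⟨δ, hδ, range hj.somePath, isPreconnected_range hj.somePath.continuous,
    ⟨0, hj.somePath.source⟩, ⟨1, hj.somePath.target⟩, fun z hz hzt => ?_⟩
  obtain ⟨q, hq, hzq⟩ := mem_thickening_iff.1 hzt
  refine hδK ?_ (subset_closure hq)
  rw [mem_thickening_iff]
  exact ⟨z, hz, by rwa [dist_comm]⟩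

theorem regular_unif (h : Regular D) : ∃ R₀ : ℝ, 0 < R₀ ∧ ∀ R : ℝ, 0 < R → R ≤ R₀ →
    ∃ s : ℝ, 0 < s ∧ ∀ x ∈ frontier D, ∃ S : Set (ℝ × ℝ), IsPreconnected S ∧
      (∃ y ∈ S, dist x y < R) ∧ (∃ y ∈ S, R₀ ≤ dist x y) ∧ ∀ z ∈ S, z ∉ thickening s D := by
  obtain ⟨R₁, hR₁, hext⟩ := h.exterior
  refine ⟨R₁ / 2, by positivity, fun R hR hRR => ?_⟩
  have hK : IsCompact (frontier D) :=
    isCompact_of_isClosed_isBounded isClosed_frontier
      (h.isBounded.closure.subset frontier_subset_closure)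
  have hex : ∀ x ∈ frontier D, ∃ δ : ℝ, 0 < δ ∧ ∃ K : Set (ℝ × ℝ), IsPreconnected K ∧
      (∃ y ∈ K, dist x y < R / 2) ∧ (∃ y ∈ K, R₁ ≤ dist x y) ∧ ∀ z ∈ K, z ∉ thickening δ D := by
    intro x hx
    obtain ⟨S, hS1, hS2, ⟨y, hy, hxy⟩, ⟨y', hy', hxy'⟩⟩ := hext x hx (R / 2) (by positivity)
    obtain ⟨δ, hδ, K, hK1, hyK, hy'K, hK2⟩ := path_ext hS1 hS2 hy hy'
    exact ⟨δ, hδ, K, hK1, ⟨y, hyK, hxy⟩, ⟨y', hy'K, hxy'⟩, hK2⟩
  choose! e he K hK1 hK2 hK3 hK4 using hex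
  obtain ⟨t, ht, htc⟩ := hK.elim_nhds_subcover (fun x => ball x (R / 2))
    fun x _ => ball_mem_nhds x (by positivity)
  rcases t.eq_empty_or_nonempty with h0 | h0
  · refine ⟨1, one_pos, fun x hx => ?_⟩
    have := htc hx
    rw [h0] at this
    simp at this
  · obtain ⟨m, hm, hmin⟩ := t.exists_min_image e h0
    refine ⟨e m, he m (ht m hm), fun x hx => ?_⟩
    obtain ⟨i, hi, hxi⟩ := mem_iUnion₂.1 (htc hx)
    obtain ⟨y, hy, hiy⟩ := hK2 i (ht i hi)
    obtain ⟨y', hy', hiy'⟩ := hK3 i (ht i hi)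
    have h2 := mem_ball.1 hxi
    refine ⟨K i, hK1 i (ht i hi), ⟨y, hy, ?_⟩, ⟨y', hy', ?_⟩, fun z hz hzt => ?_⟩
    · have h3 := dist_triangle x i y
      linarith
    · have h3 := dist_triangle i x y'
      rw [dist_comm i x] at h3
      linarith
    · exact hK4 i (ht i hi) z hz (thickening_mono (hmin i hi) _ hzt)

end Vale.Agent.P145.H821
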