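import Vale.Agent.P145.Bdl.FC
import Vale.Agent.P145.H821.Reg

/-!
Jordan domains are Carathéodory sets, Carathéodory sets are regular, and regular sets remain
regular when the closures of finitely many connected open sets are removed.
-/

namespace Vale.Agent.P145.H821

open Set Filter Topology Metric Bornology

theorem Caratheodory.regular {D : Set (ℝ × ℝ)} (h : Caratheodory D) : Regular D := by
  refine ⟨h.isOpen, h.isBounded, 1, one_pos, fun z hz ε hε => ?_⟩
  obtain ⟨y, hy, hzy⟩ := Metric.mem_closure_iff.1 (h.frontier_subset hz) ε hε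
  refine ⟨connectedComponentIn (closure D)ᶜ y, isPreconnected_connectedComponentIn,
    connectedComponentIn_subset _ _, ⟨y, mem_connectedComponentIn hy.1, hzy⟩, ?_⟩
  by_contra hcon
  push Not at hcon
  refine hy.2 ((Metric.isBounded_ball (x := z) (r := 1)).subset fun w hw => ?_)
  rw [Metric.mem_ball, dist_comm]
  exact hcon w hw

/-- Removing the closures of finitely many connected open sets. -/
theorem Regular.diff {D : Set (ℝ × ℝ)} (h : Regular D) {m : ℕ} {K : Fin m → Set (ℝ × ℝ)}
    (hK : ∀ i, IsOpen (K i)) (hKc : ∀ i, IsConnected (K i)) :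
    Regular (D \ ⋃ i, closure (K i)) := by
  classical
  have hcl : IsClosed (⋃ i, closure (K i)) := isClosed_iUnion_of_finite fun i => isClosed_closure
  obtain ⟨R, hR, hext⟩ := h.exterior
  have hsub : closure (D \ ⋃ i, closure (K i)) ⊆ closure D := closure_mono sdiff_subset
  have hK2 : ∀ i, ∃ r : ℝ, 0 < r ∧ ∀ z : ℝ × ℝ, ∃ y ∈ K i, r ≤ dist z y := by
    intro i
    obtain ⟨a, ha⟩ := (hKc i).nonempty
    obtain ⟨ρ, hρ, hball⟩ := Metric.isOpen_iff.1 (hK i) a ha
    refine ⟨ρ / 4, by positivity, fun z => ?_⟩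
    by_cases hz : ρ / 4 ≤ dist z a
    · exact ⟨a, ha, hz⟩
    · push Not at hz
      have hb : dist (a + (ρ / 2, 0)) a = ρ / 2 := by
        rw [dist_eq_norm, add_sub_cancel_left, Prod.norm_def]
        simp only [Real.norm_eq_abs, abs_zero, norm_zero]
        rw [abs_of_pos (by positivity : (0 : ℝ) < ρ / 2), max_eq_left (by positivity)]
      refine ⟨a + (ρ / 2, 0), hball ?_, ?_⟩
      · rw [Metric.mem_ball, hb]; linarith
      · have h1 := dist_triangle (a + (ρ / 2, 0)) z a
        rw [hb, dist_comm _ z] at h1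
        linarith
  choose r hr hr2 using hK2
  obtain ⟨R', hR', hR'R, hR'r⟩ : ∃ R' : ℝ, 0 < R' ∧ R' ≤ R ∧ ∀ i, R' ≤ r i := by
    rcases (Finset.univ : Finset (Fin m)).eq_empty_or_nonempty with h0 | h0
    · exact ⟨R, hR, le_rfl, fun i => absurd (Finset.mem_univ i) (by rw [h0]; simp)⟩
    · obtain ⟨j, -, hj⟩ := Finset.univ.exists_min_image r h0
      exact ⟨min R (r j), lt_min hR (hr j), min_le_left _ _,
        fun i => (min_le_right _ _).trans (hj i (Finset.mem_univ i))⟩
  refine ⟨h.isOpen.sdiff hcl, h.isBounded.subset sdiff_subset, R', hR', fun z hz ε hε => ?_⟩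
  have hzc : z ∈ closure (D \ ⋃ i, closure (K i)) := hz.1
  have hzn : z ∉ D \ ⋃ i, closure (K i) := by
    have := hz.2
    rwa [(h.isOpen.sdiff hcl).interior_eq] at this
  by_cases hzD : z ∈ D
  · have hzK : z ∈ ⋃ i, closure (K i) := by
      by_contra h0
      exact hzn ⟨hzD, h0⟩
    obtain ⟨i, hi⟩ := mem_iUnion.1 hzK
    obtain ⟨y, hy, hzy⟩ := Metric.mem_closure_iff.1 hi ε hε
    obtain ⟨y', hy', hzy'⟩ := hr2 i z
    refine ⟨K i, (hKc i).isPreconnected, fun w hw hwc => ?_, ⟨y, hy, hzy⟩,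
      ⟨y', hy', (hR'r i).trans hzy'⟩⟩
    obtain ⟨q, hq, hqD⟩ := mem_closure_iff.1 hwc (K i) (hK i) hw
    exact hqD.2 (mem_iUnion.2 ⟨i, subset_closure hq⟩)
  · have hzf : z ∈ frontier D := ⟨hsub hzc, by rwa [h.isOpen.interior_eq]⟩
    obtain ⟨S, hS1, hS2, hS3, ⟨y', hy', hzy'⟩⟩ := hext z hzf ε hε
    exact ⟨S, hS1, hS2.trans (compl_subset_compl.2 hsub), hS3, ⟨y', hy', hR'R.trans hzy'⟩⟩

open Vale.Agent.P145.PT in
/-- Jordan domains are Carathéodory sets. -/
theorem caratheodory_of_jordan {D : Set (ℝ × ℝ)} (h : JG.JordanDomain D) : Caratheodory D := by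
  obtain ⟨Φ, hΦ⟩ := h
  have hD : D = Φ '' disc := hΦ
  subst hD
  refine ⟨jordan_isOpen Φ, jordan_isBounded Φ, ?_⟩
  have hcl : closure (Φ '' disc) ⊆ Φ '' {w | en w ≤ 1} := by
    refine closure_minimal (image_mono fun w hw => ((mem_disc w).1 hw).le) ?_
    exact Φ.isClosedMap _ (isClosed_le en_cont continuous_const)
  -- the exterior of the disc
  have hout : ∀ w, 1 < en w → Φ w ∈ outer (Φ '' disc) := by
    intro w hw
    have hwn : 0 < ‖w‖ := by
      rw [norm_pos_iff]
      rintro rfl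
      unfold en sqn at hw
      simp at hw
      linarith
    refine mem_outer_of_unbounded (S := Φ '' ray w)
      ((isPreconnected_ray w).image Φ Φ.continuous.continuousOn) ?_ ?_
      ⟨w, mem_ray w, rfl⟩
    · rintro _ ⟨v, ⟨c, hc, rfl⟩, rfl⟩ hx
      obtain ⟨v', hv', hvv⟩ := hcl hx
      have hc' : (1 : ℝ) ≤ c := hc
      have : v' = c • w := Φ.injective hvv
      rw [this, mem_ofPred_eq, en_smul (by linarith)] at hv'
      have h0 := en_nonneg w
      nlinarith
    · intro hb
      have h1 : IsCompact (Φ.symm '' closure (Φ '' ray w)) :=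
        (hb.isCompact_closure).image Φ.symm.continuous
      refine not_isBounded_ray hwn (h1.isBounded.subset ?_)
      intro x hx
      exact ⟨Φ x, subset_closure ⟨x, hx, rfl⟩, Φ.symm_apply_apply x⟩
  intro z hz
  obtain ⟨w, hw, rfl⟩ := hcl hz.1
  have hw1 : en w = 1 := by
    refine le_antisymm hw ?_
    by_contra hlt
    push Not at hlt
    have : Φ w ∈ interior (Φ '' disc) := by
      rw [(jordan_isOpen Φ).interior_eq]
      exact ⟨w, (mem_disc w).2 hlt, rfl⟩
    exact hz.2 this
  -- approximation by points of the exterior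
  have hlim : Tendsto (fun n : ℕ => Φ ((1 + 1 / ((n : ℝ) + 1)) • w)) atTop (𝓝 (Φ w)) := by
    have h1 : Tendsto (fun n : ℕ => (1 + 1 / ((n : ℝ) + 1)) • w) atTop (𝓝 ((1 + 0 : ℝ) • w)) :=
      (tendsto_one_div_add_atTop_nhds_zero_nat.const_add 1).smul_const w
    rw [add_zero, one_smul] at h1
    exact (Φ.continuous.tendsto w).comp h1
  refine mem_closure_of_tendsto hlim (Eventually.of_forall fun n => hout _ ?_)
  have hn : 0 < 1 / ((n : ℝ) + 1) := by positivity
  rw [en_smul (by linarith), hw1]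
  linarith

end Vale.Agent.P145.H821
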