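import Vale.Agent.P145.JG.Defs
import Vale.Agent.P145.H821.Reg

/-!
Definitions for the scaling limit in general domains: the convergence of the expectations of
continuous functions of polynomial growth, and the height functions with zero boundary values on an
arbitrary finite set of faces.
-/

namespace Vale.Agent.P145.H821

open Filter Topology MeasureTheory ProbabilityTheory Vale.Agent.P145.JG

/-- Convergence of the expectations `E G(H_n(φ_1), …, H_n(φ_k))` for all continuous functions `G` of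
at most polynomial growth (in particular of all joint moments, `G` a monomial), for all
approximations of `D`, to the expectations for the Gaussian vector with covariance
`s² 2π ⟨φ_i, (-Δ_D)⁻¹ φ_j⟩`. -/
def PolyConv (t s : ℝ) (D : Set (ℝ × ℝ)) : Prop :=
  ∀ (δ : ℕ → ℝ) (N : ℕ → ℕ) (p : ∀ n, ZMod (N n) → ℤ × ℤ) (F : ℕ → Finset (ℤ × ℤ)),
    Approx D δ N p F →
    ∀ H : ∀ _ : ℕ, Conf → Site → ℝ, (∀ n, ∀ᵐ σ ∂law t (p n) (F n), IsHt (p n) (F n) σ (H n σ)) →
    ∀ (k : ℕ) (φ : Fin k → ℝ × ℝ → ℝ), (∀ j, TestOn D (φ j)) →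
    ∀ G : EuclideanSpace ℝ (Fin k) → ℝ, Continuous G →
      (∃ (C : ℝ) (q : ℕ), ∀ x, |G x| ≤ C * (1 + ‖x‖) ^ q) →
      Tendsto (fun n => ∫ σ, G (WithLp.toLp 2 (fun j => fldD (F n) (H n σ) (δ n) (φ j)))
          ∂law t (p n) (F n)) atTop
        (𝓝 (∫ x, G x ∂multivariateGaussian 0
          (Matrix.of (fun i j => s ^ 2 * (2 * Real.pi * dirCov D (φ i) (φ j))))))

/-! ### Zero boundary values on an arbitrary finite set of faces -/

/-- The doubled height functions `x = 2 H` with zero boundary values on the finite set `F` of faces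
of `ℤ²`: `H` is an integer at the vertices, `|H(f) - H(v)| = 1/2` for the corners `v` of a face
`f ∈ F`, and `H = 0` at the vertices with a face outside of `F` (and, by convention, at the faces
outside of `F`). -/
def heights (F : Finset (ℤ × ℤ)) : Set (Site → ℤ) :=
  {x | (∀ v, Even (x (Sum.inl v))) ∧ (∀ f, f ∉ F → x (Sum.inr f) = 0) ∧
    ∀ f : ℤ × ℤ, ∀ a b : ℤ, (a = 0 ∨ a = 1) → (b = 0 ∨ b = 1) →
      (f ∉ F → x (Sum.inl (f.1 + a, f.2 + b)) = 0) ∧
      (f ∈ F → |x (Sum.inr f) - x (Sum.inl (f.1 + a, f.2 + b))| = 1)}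

/-- The weight: `t` for every interior edge (both sides in `F`) with different heights at its ends
or at its two sides. -/
noncomputable def hweight (t : ℝ) (F : Finset (ℤ × ℤ)) (x : Site → ℤ) : ℝ :=
  (∏ e ∈ F with e - (0, 1) ∈ F,
    if x (Sum.inl e) = x (Sum.inl (e.1 + 1, e.2)) ∧ x (Sum.inr e) = x (Sum.inr (e.1, e.2 - 1))
      then 1 else t) *
  ∏ e ∈ F with e - (1, 0) ∈ F,
    if x (Sum.inl e) = x (Sum.inl (e.1, e.2 + 1)) ∧ x (Sum.inr e) = x (Sum.inr (e.1 - 1, e.2))
      then 1 else t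

/-- The law of the doubled height function with zero boundary values on `F`: probabilities
proportional to the weights. -/
noncomputable def heightLaw (t : ℝ) (F : Finset (ℤ × ℤ)) : Measure (Site → ℤ) :=
  ∑ᶠ x ∈ heights F, ENNReal.ofReal (hweight t F x / ∑ᶠ y ∈ heights F, hweight t F y) •
    Measure.dirac x

/-- Finite sets `F n` of faces of mesh `δ n → 0` approximating the bounded open set `D`: they are
eventually within any given distance of `D`, and cover every compact subset of `D` eventually. -/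
structure FaceApprox (D : Set (ℝ × ℝ)) (δ : ℕ → ℝ) (F : ℕ → Finset (ℤ × ℤ)) : Prop where
  pos : ∀ n, 0 < δ n
  lim : Tendsto δ atTop (𝓝 0)
  near : ∀ ε > 0, ∀ᶠ n in atTop, ∀ f ∈ F n, ∃ z ∈ D, dist (δ n * f.1, δ n * f.2) z < ε
  cpt : ∀ K ⊆ D, IsCompact K → ∀ᶠ n in atTop, ∀ z ∈ K, (⌊z.1 / δ n⌋, ⌊z.2 / δ n⌋) ∈ F n

/-- Convergence of the height function `H = x / 2` with zero boundary values on `F n`, tested
against finitely many test functions, to the centred Gaussian vector with covariance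
`s² 2π ⟨φ_i, (-Δ_D)⁻¹ φ_j⟩`: in law, and of the expectations of all continuous functions of
polynomial growth. -/
def HeightConv (t s : ℝ) (D : Set (ℝ × ℝ)) : Prop :=
  ∀ (δ : ℕ → ℝ) (F : ℕ → Finset (ℤ × ℤ)), FaceApprox D δ F →
    ∃ _ : ∀ n, IsProbabilityMeasure (heightLaw t (F n)),
      ∀ (k : ℕ) (φ : Fin k → ℝ × ℝ → ℝ), (∀ j, TestOn D (φ j)) →
        (Matrix.of (fun i j => s ^ 2 * (2 * Real.pi * dirCov D (φ i) (φ j)))).PosSemidef ∧
        TendstoInDistribution (fun (n : ℕ) (x : Site → ℤ) =>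
          (WithLp.toLp 2 (fun j => fldD (F n) (fun v => (x v : ℝ) / 2) (δ n) (φ j)) :
            EuclideanSpace ℝ (Fin k)))
          atTop (id : EuclideanSpace ℝ (Fin k) → EuclideanSpace ℝ (Fin k))
          (fun n => heightLaw t (F n))
          (multivariateGaussian 0
            (Matrix.of (fun i j => s ^ 2 * (2 * Real.pi * dirCov D (φ i) (φ j))))) ∧
        ∀ G : EuclideanSpace ℝ (Fin k) → ℝ, Continuous G →
          (∃ (C : ℝ) (q : ℕ), ∀ y, |G y| ≤ C * (1 + ‖y‖) ^ q) →
          Tendsto (fun n => ∫ x, G (WithLp.toLp 2 (fun j =>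
              fldD (F n) (fun v => (x v : ℝ) / 2) (δ n) (φ j))) ∂heightLaw t (F n)) atTop
            (𝓝 (∫ y, G y ∂multivariateGaussian 0
              (Matrix.of (fun i j => s ^ 2 * (2 * Real.pi * dirCov D (φ i) (φ j))))))

end Vale.Agent.P145.H821
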