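import Mathlib

/-!
Convergence in distribution and bounded moments imply the convergence of the expectations of
continuous functions of polynomial growth.
-/

namespace Vale.Agent.P145.H821

open Filter Topology MeasureTheory ProbabilityTheory

theorem one_add_pow_le {k : ℕ} (x : EuclideanSpace ℝ (Fin k)) (r : ℕ) :
    (1 + ‖x‖) ^ (2 * (r + 1)) ≤
      2 ^ (r + 1) * (2 ^ r * (1 + (k : ℝ) ^ r * ∑ j, (x j) ^ (2 * (r + 1)))) := by
  have h0 : ‖x‖ ^ 2 = ∑ j, (x j) ^ 2 := by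
    rw [EuclideanSpace.norm_sq_eq]
    exact Finset.sum_congr rfl fun j _ => by rw [Real.norm_eq_abs, sq_abs]
  have h1 : (1 + ‖x‖) ^ 2 ≤ 2 * (1 + ‖x‖ ^ 2) := by nlinarith [sq_nonneg (1 - ‖x‖)]
  have h2 : (1 + ‖x‖) ^ (2 * (r + 1)) ≤ (2 * (1 + ‖x‖ ^ 2)) ^ (r + 1) := by
    rw [pow_mul]
    exact pow_le_pow_left₀ (by positivity) h1 _
  have h3 : (1 + ‖x‖ ^ 2) ^ (r + 1) ≤ 2 ^ r * (1 ^ (r + 1) + (‖x‖ ^ 2) ^ (r + 1)) := by
    have := add_pow_le (zero_le_one (α := ℝ)) (sq_nonneg ‖x‖) (r + 1)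
    simpa using this
  have h4 : (‖x‖ ^ 2) ^ (r + 1) ≤ (k : ℝ) ^ r * ∑ j, (x j) ^ (2 * (r + 1)) := by
    rw [h0]
    rcases Nat.eq_zero_or_pos k with hk | hk
    · subst hk
      simp
    · have hk' : (0 : ℝ) < k := by exact_mod_cast hk
      have h5 := pow_sum_div_card_le_sum_pow (s := (Finset.univ : Finset (Fin k)))
        (f := fun j => (x j) ^ 2) (n := r) (fun j _ => sq_nonneg _)
      rw [Finset.card_univ, Fintype.card_fin, div_le_iff₀ (by positivity)] at h5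
      have h6 : ∑ j, ((x j) ^ 2) ^ (r + 1) = ∑ j, (x j) ^ (2 * (r + 1)) :=
        Finset.sum_congr rfl fun j _ => by rw [pow_mul]
      rw [h6] at h5
      linarith
  calc (1 + ‖x‖) ^ (2 * (r + 1)) ≤ (2 * (1 + ‖x‖ ^ 2)) ^ (r + 1) := h2
    _ = 2 ^ (r + 1) * (1 + ‖x‖ ^ 2) ^ (r + 1) := by rw [mul_pow]
    _ ≤ 2 ^ (r + 1) * (2 ^ r * (1 ^ (r + 1) + (‖x‖ ^ 2) ^ (r + 1))) := by gcongr
    _ ≤ _ := by
      rw [one_pow]
      gcongr

/-- The cut-off function. -/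
noncomputable def cut {E : Type*} [NormedAddCommGroup E] (R : ℝ) (x : E) : ℝ :=
  max 0 (min 1 (R + 1 - ‖x‖))

section cut

variable {E : Type*} [NormedAddCommGroup E]

theorem cut_nonneg (R : ℝ) (x : E) : 0 ≤ cut R x := le_max_left _ _

theorem cut_le_one (R : ℝ) (x : E) : cut R x ≤ 1 := max_le zero_le_one (min_le_left _ _)

theorem cut_eq_one {R : ℝ} {x : E} (h : ‖x‖ ≤ R) : cut R x = 1 := by
  unfold cut
  rw [min_eq_left (by linarith), max_eq_right zero_le_one]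

theorem cut_eq_zero {R : ℝ} {x : E} (h : R + 1 ≤ ‖x‖) : cut R x = 0 := by
  unfold cut
  exact max_eq_left ((min_le_right _ _).trans (by linarith))

theorem cut_cont (R : ℝ) : Continuous (cut R : E → ℝ) := by
  unfold cut
  fun_prop

/-- The tail. -/
theorem tail_le {G : E → ℝ} {C R : ℝ} {p : ℕ} (hC : 0 ≤ C) (hR : 0 ≤ R)
    (hG : ∀ x, |G x| ≤ C * (1 + ‖x‖) ^ p) (x : E) :
    |G x - G x * cut R x| ≤ C / (1 + R) * (1 + ‖x‖) ^ (2 * (p + 1)) := by
  have h0 := norm_nonneg x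
  have e : G x - G x * cut R x = G x * (1 - cut R x) := by ring
  rw [e, abs_mul, abs_of_nonneg (sub_nonneg.2 (cut_le_one R x))]
  by_cases h : ‖x‖ ≤ R
  · rw [cut_eq_one h, sub_self, mul_zero]
    positivity
  · push Not at h
    have h1 : (1 + ‖x‖) ^ (p + 1) ≤ (1 + ‖x‖) ^ (2 * (p + 1)) :=
      pow_le_pow_right₀ (by linarith) (by omega)
    have h2 : (1 + ‖x‖) ^ p * (1 + R) ≤ (1 + ‖x‖) ^ (p + 1) := by
      rw [pow_succ]
      gcongr
    calc |G x| * (1 - cut R x) ≤ |G x| * 1 :=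
          mul_le_mul_of_nonneg_left (by linarith [cut_nonneg R x]) (abs_nonneg _)
      _ ≤ C * (1 + ‖x‖) ^ p := by rw [mul_one]; exact hG x
      _ ≤ C / (1 + R) * (1 + ‖x‖) ^ (2 * (p + 1)) := by
        rw [div_mul_eq_mul_div, le_div_iff₀ (by linarith), mul_assoc]
        exact mul_le_mul_of_nonneg_left (h2.trans h1) hC

end cut

/-- Convergence of the expectations of continuous functions of polynomial growth. -/
theorem tendsto_poly {E : Type*} [NormedAddCommGroup E] [SecondCountableTopology E]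
    [MeasurableSpace E] [BorelSpace E]
    {Ω : ℕ → Type*} {m : ∀ n, MeasurableSpace (Ω n)} {μ : ∀ n, Measure (Ω n)}
    [∀ n, IsProbabilityMeasure (μ n)] {X : ∀ n, Ω n → E} {ν : Measure E} [IsProbabilityMeasure ν]
    (h : TendstoInDistribution X atTop (id : E → E) μ ν)
    (hint : ∀ n (f : E → ℝ), Integrable (fun ω => f (X n ω)) (μ n))
    (hmom : ∀ r : ℕ, ∃ K : ℝ, ∀ᶠ n in atTop, ∫ ω, (1 + ‖X n ω‖) ^ (2 * (r + 1)) ∂μ n ≤ K)
    (hν : ∀ q : ℕ, Integrable (fun x => (1 + ‖x‖) ^ q) ν)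
    {G : E → ℝ} (hG : Continuous G) {C : ℝ} {p : ℕ} (hGC : ∀ x, |G x| ≤ C * (1 + ‖x‖) ^ p) :
    Tendsto (fun n => ∫ ω, G (X n ω) ∂μ n) atTop (𝓝 (∫ x, G x ∂ν)) := by
  have hC : 0 ≤ C := by
    have h1 := hGC 0
    rw [norm_zero, add_zero, one_pow, mul_one] at h1
    exact (abs_nonneg _).trans h1
  obtain ⟨K, hK⟩ := hmom p
  set K' : ℝ := ∫ x, (1 + ‖x‖) ^ (2 * (p + 1)) ∂ν with hK'
  have hK'0 : 0 ≤ K' := integral_nonneg fun x => by positivity
  have hGν : Integrable G ν :=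
    ((hν p).const_mul C).mono' hG.aestronglyMeasurable (ae_of_all _ fun x => hGC x)
  rw [Metric.tendsto_nhds]
  intro ε hε
  set M : ℝ := C * (max K 0 + K' + 1) with hM
  have hM0 : 0 ≤ M := by positivity
  set R : ℝ := 4 * M / ε with hR
  have hR0 : 0 ≤ R := by positivity
  have hR1 : C / (1 + R) * (max K 0 + K' + 1) ≤ ε / 4 := by
    rw [div_mul_eq_mul_div, div_le_iff₀ (by linarith), ← hM]
    have : ε / 4 * R = M := by rw [hR]; field_simp
    nlinarith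
  have hcr0 : 0 ≤ C / (1 + R) := by positivity
  set g : E → ℝ := fun x => G x * cut R x with hg
  have hgc : Continuous g := hG.mul (cut_cont R)
  have hgb : ∀ x, ‖g x‖ ≤ C * (R + 2) ^ p := by
    intro x
    rw [Real.norm_eq_abs, hg]
    simp only
    rw [abs_mul, abs_of_nonneg (cut_nonneg R x)]
    by_cases hx : ‖x‖ ≤ R + 1
    · calc |G x| * cut R x ≤ |G x| * 1 :=
            mul_le_mul_of_nonneg_left (cut_le_one R x) (abs_nonneg _)
        _ ≤ C * (1 + ‖x‖) ^ p := by rw [mul_one]; exact hGC x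
        _ ≤ C * (R + 2) ^ p := by
          refine mul_le_mul_of_nonneg_left (pow_le_pow_left₀ (by positivity) (by linarith) _) hC
    · rw [cut_eq_zero (not_le.1 hx).le, mul_zero]
      positivity
  let f : BoundedContinuousFunction E ℝ :=
    BoundedContinuousFunction.ofNormedAddCommGroup g hgc _ hgb
  have h1 := (ProbabilityMeasure.tendsto_iff_forall_integral_tendsto.1 h.tendsto) f
  have h2 : Tendsto (fun n => ∫ ω, g (X n ω) ∂μ n) atTop (𝓝 (∫ x, g x ∂ν)) := by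
    have e1 : ∀ n, ∫ x, f x ∂((μ n).map (X n)) = ∫ ω, g (X n ω) ∂μ n := fun n =>
      integral_map (h.forall_aemeasurable n) hgc.aestronglyMeasurable
    have e2 : ∫ x, f x ∂(ν.map id) = ∫ x, g x ∂ν := by rw [Measure.map_id]; rfl
    have h1' : Tendsto (fun n => ∫ x, f x ∂((μ n).map (X n))) atTop
        (𝓝 (∫ x, f x ∂(ν.map id))) := h1
    rw [e2] at h1'
    exact h1'.congr e1
  have hgν : Integrable g ν :=
    (integrable_const (C * (R + 2) ^ p)).mono' hgc.aestronglyMeasurable (ae_of_all _ hgb)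
  have t2 : |(∫ x, G x ∂ν) - ∫ x, g x ∂ν| ≤ C / (1 + R) * K' := by
    rw [← integral_sub hGν hgν]
    refine (abs_integral_le_integral_abs).trans ?_
    rw [hK', ← integral_const_mul]
    exact integral_mono (hGν.sub hgν).abs ((hν _).const_mul _)
      fun x => tail_le hC hR0 hGC x
  filter_upwards [hK, Metric.tendsto_nhds.1 h2 (ε / 4) (by positivity)] with n hn1 hn2
  have t1 : |(∫ ω, G (X n ω) ∂μ n) - ∫ ω, g (X n ω) ∂μ n| ≤ C / (1 + R) * K := by
    rw [← integral_sub (hint n G) (hint n g)]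
    refine (abs_integral_le_integral_abs).trans ?_
    refine le_trans ?_ (mul_le_mul_of_nonneg_left hn1 hcr0)
    rw [← integral_const_mul]
    exact integral_mono ((hint n G).sub (hint n g)).abs
      ((hint n fun x => (1 + ‖x‖) ^ (2 * (p + 1))).const_mul _) fun ω => tail_le hC hR0 hGC _
  rw [Real.dist_eq] at hn2 ⊢
  have hKm : C / (1 + R) * K ≤ C / (1 + R) * max K 0 :=
    mul_le_mul_of_nonneg_left (le_max_left _ _) hcr0
  have e : C / (1 + R) * (max K 0 + K' + 1)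
      = C / (1 + R) * max K 0 + C / (1 + R) * K' + C / (1 + R) := by ring
  rw [abs_le] at t1 t2
  rw [abs_lt] at hn2 ⊢
  constructor <;> linarith [t1.1, t1.2, t2.1, t2.2, hn2.1, hn2.2]

theorem gauss_int {k : ℕ} (S : Matrix (Fin k) (Fin k) ℝ) (q : ℕ) :
    Integrable (fun x : EuclideanSpace ℝ (Fin k) => (1 + ‖x‖) ^ q)
      (multivariateGaussian 0 S) := by
  have h0 : MemLp (id : EuclideanSpace ℝ (Fin k) → EuclideanSpace ℝ (Fin k)) (q : ENNReal)
      (multivariateGaussian 0 S) :=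
    IsGaussian.memLp_id (multivariateGaussian 0 S) q (ENNReal.natCast_ne_top q)
  have h2 : MemLp (fun x : EuclideanSpace ℝ (Fin k) => ‖x‖) (q : ENNReal)
      (multivariateGaussian 0 S) := h0.norm
  have h1 : MemLp (fun x : EuclideanSpace ℝ (Fin k) => 1 + ‖x‖) (q : ENNReal)
      (multivariateGaussian 0 S) := (memLp_const (1 : ℝ)).add h2
  have h3 : Integrable (fun x : EuclideanSpace ℝ (Fin k) => ‖1 + ‖x‖‖ ^ q)
      (multivariateGaussian 0 S) := h1.integrable_norm_pow'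
  refine h3.congr (ae_of_all _ fun x => ?_)
  have h4 : (0 : ℝ) ≤ 1 + ‖x‖ := by positivity
  simp only
  rw [Real.norm_of_nonneg h4]

theorem bd_of_coord {k : ℕ} {Ω : Type*} [MeasurableSpace Ω] {μ : Measure Ω}
    [IsProbabilityMeasure μ] {X : Ω → EuclideanSpace ℝ (Fin k)}
    (hint : ∀ f : EuclideanSpace ℝ (Fin k) → ℝ, Integrable (fun ω => f (X ω)) μ) {r : ℕ}
    {M : Fin k → ℝ} (h : ∀ j, ∫ ω, (X ω j) ^ (2 * (r + 1)) ∂μ ≤ M j) :
    ∫ ω, (1 + ‖X ω‖) ^ (2 * (r + 1)) ∂μ ≤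
      2 ^ (r + 1) * (2 ^ r * (1 + (k : ℝ) ^ r * ∑ j, M j)) := by
  have i2 : Integrable (fun ω => 2 ^ (r + 1) * (2 ^ r * (1 + (k : ℝ) ^ r *
      ∑ j, (X ω j) ^ (2 * (r + 1))))) μ :=
    hint fun x => 2 ^ (r + 1) * (2 ^ r * (1 + (k : ℝ) ^ r * ∑ j, (x j) ^ (2 * (r + 1))))
  have i3 : ∀ j, Integrable (fun ω => (X ω j) ^ (2 * (r + 1))) μ :=
    fun j => hint fun x => (x j) ^ (2 * (r + 1))
  have i4 : Integrable (fun ω => (k : ℝ) ^ r * ∑ j, (X ω j) ^ (2 * (r + 1))) μ :=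
    hint fun x => (k : ℝ) ^ r * ∑ j, (x j) ^ (2 * (r + 1))
  calc ∫ ω, (1 + ‖X ω‖) ^ (2 * (r + 1)) ∂μ
      ≤ ∫ ω, 2 ^ (r + 1) * (2 ^ r * (1 + (k : ℝ) ^ r *
        ∑ j, (X ω j) ^ (2 * (r + 1)))) ∂μ :=
        integral_mono (hint fun x => (1 + ‖x‖) ^ (2 * (r + 1))) i2 fun ω => one_add_pow_le _ r
    _ = 2 ^ (r + 1) * (2 ^ r * (1 + (k : ℝ) ^ r *
        ∑ j, ∫ ω, (X ω j) ^ (2 * (r + 1)) ∂μ)) := by
        rw [integral_const_mul, integral_const_mul, integral_add (integrable_const _) i4,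
          integral_const_mul, integral_finsetSum _ fun j _ => i3 j]
        simp
    _ ≤ _ := by
        have : ∑ j, ∫ ω, (X ω j) ^ (2 * (r + 1)) ∂μ ≤ ∑ j, M j :=
          Finset.sum_le_sum fun j _ => h j
        gcongr

end Vale.Agent.P145.H821
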