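import Vale.Agent.P145.H821.Squeeze
import Vale.Agent.P145.H821.Poly
import Vale.Agent.P145.H821.Defs

/-!
Convergence in law and of all moments for Carathéodory open sets.
-/

namespace Vale.Agent.P145.H821

open Filter Topology Set MeasureTheory ProbabilityTheory
open Vale.Agent.P145.PT Vale.Agent.P145.FP Vale.Agent.P145.Dom Vale.Agent.P145.Top
open Vale.Agent.P145.FA (PlIn)

/-- The convergence of the moments of single test functions. -/
def MomT (t κ : ℝ) (D : Set (ℝ × ℝ)) : Prop :=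
  ∀ (δ : ℕ → ℝ) (N : ℕ → ℕ) (p : ∀ n, ZMod (N n) → ℤ × ℤ) (F : ℕ → Finset (ℤ × ℤ)),
    Dom.Approx D δ N p F → ∀ φ : ℝ × ℝ → ℝ, PT.TestOn D φ → ∀ k : ℕ,
      Tendsto (fun n => ze (1 / t) (F n) (fun x => zf (F n) (δ n) φ x ^ k)) atTop
        (𝓝 (gm (κ * PT.V D φ) k))

/-- `conv_of_char` for bounded sets. -/
theorem conv_of_char' {D : Set (ℝ × ℝ)} (hD : Bornology.IsBounded D) {t s : ℝ} {δ : ℕ → ℝ}
    {N : ℕ → ℕ} {p : ∀ n, ZMod (N n) → ℤ × ℤ} {F : ℕ → Finset (ℤ × ℤ)}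
    [∀ n, IsProbabilityMeasure (Dom.law t (p n) (F n))] (H : ∀ _ : ℕ, Conf → Site → ℝ)
    (hch : ∀ φ, PT.TestOn D φ → Tendsto
      (fun n => ∫ σ, Complex.exp ((Dom.fldD (F n) (H n σ) (δ n) φ : ℂ) * Complex.I)
        ∂Dom.law t (p n) (F n)) atTop
      (𝓝 (Complex.exp (-((s ^ 2 * (2 * Real.pi) * PT.V D φ : ℝ) : ℂ) / 2))))
    (k : ℕ) (φ : Fin k → ℝ × ℝ → ℝ) (hφ : ∀ j, PT.TestOn D (φ j)) :
    (Matrix.of (fun i j => s ^ 2 * (2 * Real.pi * Dom.dirCov D (φ i) (φ j)))).PosSemidef ∧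
    TendstoInDistribution (fun (n : ℕ) (σ : Conf) =>
      (WithLp.toLp 2 (fun j => Dom.fldD (F n) (H n σ) (δ n) (φ j)) : EuclideanSpace ℝ (Fin k)))
      atTop (id : EuclideanSpace ℝ (Fin k) → EuclideanSpace ℝ (Fin k))
      (fun n => Dom.law t (p n) (F n))
      (multivariateGaussian 0
        (Matrix.of (fun i j => s ^ 2 * (2 * Real.pi * Dom.dirCov D (φ i) (φ j))))) := by
  have hc : 0 ≤ s ^ 2 * (2 * Real.pi) := by positivity
  have e : (Matrix.of (fun i j => s ^ 2 * (2 * Real.pi * Dom.dirCov D (φ i) (φ j)))) =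
      Matrix.of (fun i j => s ^ 2 * (2 * Real.pi) * Dom.dirCov D (φ i) (φ j)) := by
    ext i j
    simp only [Matrix.of_apply]
    ring
  rw [e]
  exact vec_conv hD hc (fun n => Dom.law t (p n) (F n))
    (fun n σ φ => Dom.fldD (F n) (H n σ) (δ n) φ) (fun n σ φ ψ => fldD_add _ _ _ _ _)
    (fun n σ a φ => fldD_smul _ _ _ _ _) (fun n φ => law_aemeasurable _ _ _ _) hch k φ hφ

/-- The moments for the law in a polygon. -/
theorem pow_law {t : ℝ} (ht : 0 < t) {n : ℕ} {p : ZMod n → ℤ × ℤ} (hp : Dom.IsPolygon p)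
    {F : Finset (ℤ × ℤ)} (hF : Dom.Encloses p F) {H : Conf → Site → ℝ}
    (hH : ∀ᵐ σ ∂Dom.law t p F, Dom.IsHt p F σ (H σ)) (δ : ℝ) (ψ : ℝ × ℝ → ℝ) (j : ℕ) :
    ∫ σ, Dom.fldD F (H σ) δ ψ ^ j ∂Dom.law t p F = ze (1 / t) F (fun x => zf F δ ψ x ^ j) := by
  have h := law_mom ht hp hF hH δ (Finset.range j) (fun _ => ψ)
  simp only [Finset.prod_const, Finset.card_range] at h
  exact h

/-- Convergence in law, from the convergence of all moments of single test functions. -/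
theorem conv_of_mom' {t κ s : ℝ} (ht : 0 < t) (hs : κ = s ^ 2 * (2 * Real.pi))
    {D : Set (ℝ × ℝ)} (hb : Bornology.IsBounded D) (hmom : MomT t κ D) : Dom.Conv t s D := by
  intro δ N p F hA
  have hprob : ∀ n, IsProbabilityMeasure (Dom.law t (p n) (F n)) :=
    fun n => law_prob ht.le (p n) (F n)
  refine ⟨hprob, fun n => ae_exists_isHt (hA.poly n) (hA.encl n), ?_⟩
  intro H hH k φ hφ
  refine conv_of_char' hb H (fun ψ hψ => ?_) k φ hφ
  have key := charfun_of_moments (l := atTop) (fun n => Dom.law t (p n) (F n))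
    (fun n σ => Dom.fldD (F n) (H n σ) (δ n) ψ) (fun n j => law_integrable _ _ _ _)
    (v := κ * PT.V D ψ) (fun j => by
      refine (hmom δ N p F hA ψ hψ j).congr fun n => ?_
      exact (pow_law ht (hA.poly n) (hA.encl n) (hH n) (δ n) ψ j).symm)
  have e1 : ((-(κ * PT.V D ψ / 2) : ℝ) : ℂ) = -((s ^ 2 * (2 * Real.pi) * PT.V D ψ : ℝ) : ℂ) / 2 := by
    rw [hs]; push_cast; ring
  rw [e1] at key
  refine key.congr fun n => ?_
  refine integral_congr_ae (ae_of_all _ fun σ => ?_)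
  simp only []
  rw [mul_comm]

/-- The tested heights. -/
noncomputable def vecH {k : ℕ} (F : Finset (ℤ × ℤ)) (H : Conf → Site → ℝ) (δ : ℝ)
    (φ : Fin k → ℝ × ℝ → ℝ) (σ : Conf) : EuclideanSpace ℝ (Fin k) :=
  WithLp.toLp 2 (fun j => Dom.fldD F (H σ) δ (φ j))

theorem vecH_bd {t κ : ℝ} (ht : 0 < t)
    {D : Set (ℝ × ℝ)} (hmom : MomT t κ D) {δ : ℕ → ℝ} {N : ℕ → ℕ}
    {p : ∀ n, ZMod (N n) → ℤ × ℤ} {F : ℕ → Finset (ℤ × ℤ)} (hA' : Dom.Approx D δ N p F)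
    {H : ∀ _ : ℕ, Conf → Site → ℝ}
    (hH : ∀ n, ∀ᵐ σ ∂Dom.law t (p n) (F n), Dom.IsHt (p n) (F n) σ (H n σ))
    {k : ℕ} {φ : Fin k → ℝ × ℝ → ℝ} (hφ : ∀ j, PT.TestOn D (φ j)) (r : ℕ) :
    ∃ K : ℝ, ∀ᶠ n in atTop,
      ∫ σ, (1 + ‖vecH (F n) (H n) (δ n) φ σ‖) ^ (2 * (r + 1)) ∂Dom.law t (p n) (F n) ≤ K := by
  have hprob : ∀ n, IsProbabilityMeasure (Dom.law t (p n) (F n)) :=
    fun n => law_prob ht.le (p n) (F n)
  refine ⟨2 ^ (r + 1) * (2 ^ r * (1 + (k : ℝ) ^ r *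
    ∑ j, (gm (κ * PT.V D (φ j)) (2 * (r + 1)) + 1))), ?_⟩
  have h1 : ∀ j, ∀ᶠ n in atTop, ∫ σ, Dom.fldD (F n) (H n σ) (δ n) (φ j) ^ (2 * (r + 1))
      ∂Dom.law t (p n) (F n) ≤ gm (κ * PT.V D (φ j)) (2 * (r + 1)) + 1 := by
    intro j
    have h2 := (hmom δ N p F hA' (φ j) (hφ j) (2 * (r + 1))).eventually_lt_const
      (show gm (κ * PT.V D (φ j)) (2 * (r + 1)) < gm (κ * PT.V D (φ j)) (2 * (r + 1)) + 1 by
        linarith)
    filter_upwards [h2] with n hn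
    rw [pow_law ht (hA'.poly n) (hA'.encl n) (hH n) (δ n) (φ j)]
    exact hn.le
  filter_upwards [eventually_all.2 h1] with n hn
  exact bd_of_coord (fun f => law_integrable _ _ _ _) hn

/-- Convergence of the expectations of functions of polynomial growth. -/
theorem poly_of_mom' {t κ s : ℝ} (ht : 0 < t) (hs : κ = s ^ 2 * (2 * Real.pi))
    {D : Set (ℝ × ℝ)} (hb : Bornology.IsBounded D) (hmom : MomT t κ D) {δ : ℕ → ℝ} {N : ℕ → ℕ}
    {p : ∀ n, ZMod (N n) → ℤ × ℤ} {F : ℕ → Finset (ℤ × ℤ)} (hA' : Dom.Approx D δ N p F)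
    {H : ∀ _ : ℕ, Conf → Site → ℝ}
    (hH : ∀ n, ∀ᵐ σ ∂Dom.law t (p n) (F n), Dom.IsHt (p n) (F n) σ (H n σ))
    {k : ℕ} {φ : Fin k → ℝ × ℝ → ℝ} (hφ : ∀ j, PT.TestOn D (φ j))
    {G : EuclideanSpace ℝ (Fin k) → ℝ} (hG : Continuous G) {C : ℝ} {q : ℕ}
    (hGC : ∀ x, |G x| ≤ C * (1 + ‖x‖) ^ q) :
    Tendsto (fun n => ∫ σ, G (vecH (F n) (H n) (δ n) φ σ) ∂Dom.law t (p n) (F n)) atTop
        (𝓝 (∫ x, G x ∂multivariateGaussian 0
          (Matrix.of (fun i j => s ^ 2 * (2 * Real.pi * Dom.dirCov D (φ i) (φ j)))))) := by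
  obtain ⟨hprob, -, hconv⟩ := conv_of_mom' ht hs hb hmom δ N p F hA'
  obtain ⟨-, hT⟩ := hconv H hH k φ hφ
  have hT' : TendstoInDistribution (fun (n : ℕ) (σ : Conf) => vecH (F n) (H n) (δ n) φ σ)
      atTop (id : EuclideanSpace ℝ (Fin k) → EuclideanSpace ℝ (Fin k))
      (fun n => Dom.law t (p n) (F n))
      (multivariateGaussian 0
        (Matrix.of (fun i j => s ^ 2 * (2 * Real.pi * Dom.dirCov D (φ i) (φ j))))) := hT
  exact tendsto_poly hT' (fun n f => law_integrable _ _ _ _) (vecH_bd ht hmom hA' hH hφ)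
    (gauss_int _) hG hGC

theorem poly_of_mom {t κ s : ℝ} (ht : 0 < t) (hs : κ = s ^ 2 * (2 * Real.pi))
    {D : Set (ℝ × ℝ)} (hb : Bornology.IsBounded D) (hmom : MomT t κ D) : PolyConv t s D := by
  intro δ N p F hA H hH k φ hφ G hG hGC
  obtain ⟨C, q, hGC⟩ := hGC
  exact poly_of_mom' ht hs hb hmom (JG.approx_dom hA) hH hφ hG hGC

/-- The moments for Carathéodory open sets, from the inputs. -/
theorem momT_of {t κ : ℝ} (ht : 0 < t) (hκ : 0 < κ) (hm : S_mono (1 / t))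
    (hin : ∀ δ : ℕ → ℝ, (∀ n, 0 < δ n) → Tendsto δ atTop (𝓝 0) →
      S_mb (1 / t) δ ∧ S_l2 (1 / t) δ ∧ S_dec (1 / t) δ ∧ S_xst (1 / t) κ δ)
    {D : Set (ℝ × ℝ)} (hC : Caratheodory D) : MomT t κ D :=
  fun δ N p F hA φ hφ k => squeeze' hm hA.pos (key
    { cpos := by positivity
      κpos := hκ
      δpos := hA.pos
      δlim := hA.lim
      mono := hm
      mb := (hin δ hA.pos hA.lim).1
      l2 := (hin δ hA.pos hA.lim).2.1
      dec := (hin δ hA.pos hA.lim).2.2.1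
      xst := (hin δ hA.pos hA.lim).2.2.2 }) hC.isOpen (subset_core hC.isOpen)
    (isBounded_core hC.isBounded) (fun _ hψ hψ0 _ hη => car_stab hC hψ hψ0 hη)
    (fun D' _ hb hD' => approx_in hA D' hb hD') (car_out hC hA) hφ k

/-- The moments for Carathéodory open sets on the self-dual line. -/
theorem momT {J U : ℝ} (hUJ : U ≤ J) (hself : Real.sinh (2 * J) = Real.exp (-2 * U))
    {D : Set (ℝ × ℝ)} (hC : Caratheodory D) :
    MomT (1 / √(1 + Real.exp (4 * U)))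
      ((1 / (Real.pi * √(8 / Real.pi * Real.arcsin (√(1 + Real.exp (4 * U)) / 2)))) ^ 2 *
        (2 * Real.pi)) D := by
  obtain ⟨h1, h2⟩ := JG.c_range hUJ hself
  have h0 : 0 < Real.exp (4 * U) := Real.exp_pos _
  have h1' : 1 < √(1 + Real.exp (4 * U)) := by
    rw [Real.lt_sqrt (by norm_num)]; linarith
  set c : ℝ := √(1 + Real.exp (4 * U)) with hc
  have hc0 : 0 < c := by linarith
  have hV : X.Val c := X.val_of_mainV (P152.GFF.mainV_fin (JG.sin_small.trans h1') h2)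
  obtain ⟨P, κ, h⟩ := FA.exists_plIn h1 h2
  have hval := hV P κ h
  have hκ := h.κpos
  have h' : PlIn c P (4 * (κ / 4)) := by
    have e : 4 * (κ / 4) = κ := by ring
    rw [e]; exact h
  have ha : 0 < Real.arcsin (c / 2) := Real.arcsin_pos.2 (by linarith)
  have hpi := Real.pi_pos
  have hg0 : 0 < 8 / Real.pi * Real.arcsin (c / 2) := by positivity
  have e2 : (1 / (Real.pi * √(8 / Real.pi * Real.arcsin (c / 2)))) ^ 2 * (2 * Real.pi)
      = κ / 4 := by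
    rw [div_pow, mul_pow, Real.sq_sqrt hg0.le, one_pow, hval]
    field_simp
    ring
  rw [e2]
  have e3 : 1 / (1 / c) = c := one_div_one_div c
  refine momT_of (by positivity) (by linarith) ?_ ?_ hC
  · rw [e3]; exact FK.s_mono h1
  · rw [e3]
    exact fun δ hδ hl => JG.inOK h1 h2 P (κ / 4) h' δ hδ hl

/-- **The theorem for Carathéodory open sets.** -/
theorem car_full {J U : ℝ} (hUJ : U ≤ J) (hself : Real.sinh (2 * J) = Real.exp (-2 * U))
    (D : Set (ℝ × ℝ)) (hC : Caratheodory D) :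
    JG.Conv (1 / √(1 + Real.exp (4 * U)))
      (1 / (Real.pi * √(8 / Real.pi * Real.arcsin (√(1 + Real.exp (4 * U)) / 2)))) D ∧
    PolyConv (1 / √(1 + Real.exp (4 * U)))
      (1 / (Real.pi * √(8 / Real.pi * Real.arcsin (√(1 + Real.exp (4 * U)) / 2)))) D := by
  have ht : 0 < 1 / √(1 + Real.exp (4 * U)) := by
    have := Real.exp_pos (4 * U)
    positivity
  exact ⟨JG.conv_of_dom (conv_of_mom' ht rfl hC.isBounded (momT hUJ hself hC)),
    poly_of_mom ht rfl hC.isBounded (momT hUJ hself hC)⟩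

end Vale.Agent.P145.H821
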