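import Vale.Agent.P145.H821.Multi
import Vale.Agent.P145.H821.Class

/-!
The scaling limit of the height functions with zero boundary values on the self-dual line, in
regular bounded open sets.
-/

namespace Vale.Agent.P145.H821

open Filter Topology Set MeasureTheory ProbabilityTheory
open Vale.Agent.P145.PT Vale.Agent.P145.FP Vale.Agent.P145.Dom Vale.Agent.P145.Top
open Vale.Agent.P145.FA (PlIn)

/-- The moments for regular open sets on the self-dual line. -/
theorem momF {J U : ℝ} (hUJ : U ≤ J) (hself : Real.sinh (2 * J) = Real.exp (-2 * U))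
    {D : Set (ℝ × ℝ)} (hC : Regular D) :
    MomF (1 / √(1 + Real.exp (4 * U)))
      ((1 / (Real.pi * √(8 / Real.pi * Real.arcsin (√(1 + Real.exp (4 * U)) / 2)))) ^ 2 *
        (2 * Real.pi)) D := by
  obtain ⟨h1, h2⟩ := JG.c_range hUJ hself
  have h0 : 0 < Real.exp (4 * U) := Real.exp_pos _
  have h1' : 1 < √(1 + Real.exp (4 * U)) := by
    rw [Real.lt_sqrt (by norm_num)]; linarith
  set c : ℝ := √(1 + Real.exp (4 * U)) with hc
  have hc0 : 0 < c := by linarith
  have hV : X.Val c := X.val_of_mainV (P152.GFF.mainV_fin (JG.sin_small.trans h1') h2)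
  obtain ⟨P, κ, h⟩ := FA.exists_plIn h1 h2
  have hval := hV P κ h
  have hκ := h.κpos
  have h' : PlIn c P (4 * (κ / 4)) := by
    have e : 4 * (κ / 4) = κ := by ring
    rw [e]; exact h
  have ha : 0 < Real.arcsin (c / 2) := Real.arcsin_pos.2 (by linarith)
  have hpi := Real.pi_pos
  have hg0 : 0 < 8 / Real.pi * Real.arcsin (c / 2) := by positivity
  have e2 : (1 / (Real.pi * √(8 / Real.pi * Real.arcsin (c / 2)))) ^ 2 * (2 * Real.pi)
      = κ / 4 := by
    rw [div_pow, mul_pow, Real.sq_sqrt hg0.le, one_pow, hval]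
    field_simp
    ring
  rw [e2]
  have e3 : 1 / (1 / c) = c := one_div_one_div c
  refine momF_of (by positivity) (by linarith) ?_ ?_ hC
  · rw [e3]; exact FK.s_mono h1
  · rw [e3]
    exact fun δ hδ hl => JG.inOK h1 h2 P (κ / 4) h' δ hδ hl

/-- **The theorem for regular open sets.** -/
theorem regular_full {J U : ℝ} (hUJ : U ≤ J) (hself : Real.sinh (2 * J) = Real.exp (-2 * U))
    (D : Set (ℝ × ℝ)) (hC : Regular D) :
    HeightConv (1 / √(1 + Real.exp (4 * U)))
      (1 / (Real.pi * √(8 / Real.pi * Real.arcsin (√(1 + Real.exp (4 * U)) / 2)))) D := by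
  have ht : 0 < 1 / √(1 + Real.exp (4 * U)) := by
    have := Real.exp_pos (4 * U)
    positivity
  exact heightConv_of_mom ht rfl hC.isBounded (momF hUJ hself hC)

end Vale.Agent.P145.H821
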