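import Vale.Agent.P145.H821.Conv
import Vale.Agent.P145.H821.StabR

/-!
The scaling limit for zero boundary heights on arbitrary finite sets of faces approximating a
regular bounded open set.
-/

namespace Vale.Agent.P145.H821

open Filter Topology Set MeasureTheory ProbabilityTheory
open Vale.Agent.P145.PT Vale.Agent.P145.FP Vale.Agent.P145.Dom Vale.Agent.P145.Top
open Vale.Agent.P145.FA (PlIn)

theorem heights_eq (F : Finset (ℤ × ℤ)) : heights F = ZH F := rfl

theorem prod_ite_eq {ι : Type*} (s : Finset ι) (P : ι → Prop) [DecidablePred P] {t : ℝ}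
    (ht : 0 < t) : (∏ e ∈ s, if P e then 1 else t) =
      t ^ s.card * ∏ e ∈ s, if P e then 1 / t else 1 := by
  rw [← Finset.prod_const, ← Finset.prod_mul_distrib]
  refine Finset.prod_congr rfl fun e _ => ?_
  split_ifs
  · field_simp
  · rw [mul_one]

theorem hweight_eq {t : ℝ} (ht : 0 < t) (F : Finset (ℤ × ℤ)) :
    ∃ C : ℝ, 0 < C ∧ ∀ x, hweight t F x = C * zw (1 / t) F x := by
  refine ⟨t ^ (F.filter fun e => e - (0, 1) ∈ F).card * t ^ (F.filter fun e =>
    e - (1, 0) ∈ F).card, by positivity, fun x => ?_⟩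
  unfold hweight zw
  rw [prod_ite_eq _ _ ht, prod_ite_eq _ _ ht]
  ring

theorem ratio_eq {t : ℝ} (ht : 0 < t) (F : Finset (ℤ × ℤ)) (x : Site → ℤ) :
    hweight t F x / ∑ᶠ y ∈ heights F, hweight t F y =
      zw (1 / t) F x / zs (1 / t) F (fun _ => 1) := by
  obtain ⟨C, hC, h⟩ := hweight_eq ht F
  have e : ∑ᶠ y ∈ heights F, hweight t F y = C * zs (1 / t) F (fun _ => 1) := by
    rw [zs_eq_sum, heights_eq, finsum_mem_eq_finite_toFinset_sum _ (ZH_finite F),
      Finset.mul_sum]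
    exact Finset.sum_congr rfl fun y _ => by rw [h y, mul_one]
  rw [e, h x, mul_div_mul_left _ _ hC.ne']

theorem heightLaw_eq {t : ℝ} (ht : 0 < t) (F : Finset (ℤ × ℤ)) :
    heightLaw t F = ∑ x ∈ (ZH_finite F).toFinset,
      ENNReal.ofReal (zw (1 / t) F x / zs (1 / t) F (fun _ => 1)) • Measure.dirac x := by
  unfold heightLaw
  rw [heights_eq, finsum_mem_eq_finite_toFinset_sum _ (ZH_finite F)]
  exact Finset.sum_congr rfl fun x _ => by rw [← heights_eq, ratio_eq ht]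

theorem heightLaw_integrable {t : ℝ} (ht : 0 < t) (F : Finset (ℤ × ℤ)) (f : (Site → ℤ) → ℝ) :
    Integrable f (heightLaw t F) := by
  rw [heightLaw_eq ht, integrable_finsetSum_measure]
  intro x _
  exact (integrable_dirac (by simp)).smul_measure ENNReal.ofReal_ne_top

theorem ratio_nonneg {t : ℝ} (ht : 0 < t) (F : Finset (ℤ × ℤ)) (x : Site → ℤ) :
    0 ≤ zw (1 / t) F x / zs (1 / t) F (fun _ => 1) :=
  div_nonneg (zw_pos (by positivity) F x).le (zs_pos' (by positivity) F).le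

theorem heightLaw_prob {t : ℝ} (ht : 0 < t) (F : Finset (ℤ × ℤ)) :
    IsProbabilityMeasure (heightLaw t F) := by
  refine ⟨?_⟩
  rw [heightLaw_eq ht, Measure.finsetSum_apply]
  have e : ∀ x ∈ (ZH_finite F).toFinset,
      (ENNReal.ofReal (zw (1 / t) F x / zs (1 / t) F (fun _ => 1)) •
        Measure.dirac x : Measure (Site → ℤ)) univ
      = ENNReal.ofReal (zw (1 / t) F x / zs (1 / t) F (fun _ => 1)) := by
    intro x _
    simp
  rw [Finset.sum_congr rfl e, ← ENNReal.ofReal_sum_of_nonneg fun x _ => ratio_nonneg ht F x,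
    ← Finset.sum_div]
  have e2 : ∑ x ∈ (ZH_finite F).toFinset, zw (1 / t) F x = zs (1 / t) F (fun _ => 1) := by
    rw [zs_eq_sum]
    exact Finset.sum_congr rfl fun x _ => (mul_one _).symm
  rw [e2, div_self (zs_pos' (by positivity) F).ne', ENNReal.ofReal_one]

theorem heightLaw_integral {t : ℝ} (ht : 0 < t) (F : Finset (ℤ × ℤ)) (f : (Site → ℤ) → ℝ) :
    ∫ x, f x ∂heightLaw t F = ze (1 / t) F f := by
  rw [heightLaw_eq ht, integral_finsetSum_measure fun x _ =>
    (integrable_dirac (by simp)).smul_measure ENNReal.ofReal_ne_top]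
  unfold ze
  rw [zs_eq_sum (1 / t) F f, Finset.sum_div]
  refine Finset.sum_congr rfl fun x _ => ?_
  rw [integral_smul_measure, integral_dirac, ENNReal.toReal_ofReal (ratio_nonneg ht F x),
    smul_eq_mul]
  ring

theorem heightLaw_aem {β : Type*} [MeasurableSpace β] {t : ℝ} (ht : 0 < t)
    (F : Finset (ℤ × ℤ)) (f : (Site → ℤ) → β) : AEMeasurable f (heightLaw t F) := by
  classical
  rw [heightLaw_eq ht]
  have gen : ∀ (s : Finset (Site → ℤ)) (c : (Site → ℤ) → ENNReal),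
      AEMeasurable f (∑ S ∈ s, c S • Measure.dirac S) := by
    intro s c
    induction s using Finset.induction_on with
    | empty => simp
    | insert i s hi ih =>
      rw [Finset.sum_insert hi]
      exact AEMeasurable.add_measure (AEMeasurable.smul_measure aemeasurable_dirac _) ih
  exact gen _ _

section approx

variable {D : Set (ℝ × ℝ)} {δ : ℕ → ℝ} {F : ℕ → Finset (ℤ × ℤ)}

theorem face_in (hA : FaceApprox D δ F) (D' : Set (ℝ × ℝ))
    (hb : Bornology.IsBounded D') (hD' : closure D' ⊆ D) :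
    ∀ᶠ n in atTop, Fs (δ n) D' ⊆ F n := by
  filter_upwards [hA.cpt (closure D') hD' hb.isCompact_closure] with n hn
  intro f hf
  have hδ := hA.pos n
  have hsub : Top.sq (δ n) f ⊆ D' := by
    unfold Fs at hf
    split_ifs at hf with h
    · exact h.mem_toFinset.1 hf
    · simp at hf
  have hmem : ((δ n * f.1, δ n * f.2) : ℝ × ℝ) ∈ Top.sq (δ n) f := by
    refine ⟨le_rfl, ?_, le_rfl, ?_⟩ <;> simp only <;> nlinarith
  have := hn _ (subset_closure (hsub hmem))
  have e1 : δ n * (f.1 : ℝ) / δ n = f.1 := by field_simp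
  have e2 : δ n * (f.2 : ℝ) / δ n = f.2 := by field_simp
  simp only [e1, e2, Int.floor_intCast] at this
  exact this

theorem face_out (hD : Bornology.IsBounded D) (hA : FaceApprox D δ F) (D' : Set (ℝ × ℝ))
    (hD' : IsOpen D') (hb : Bornology.IsBounded D') (hcl : closure D ⊆ D') :
    ∀ᶠ n in atTop, F n ⊆ Fs (δ n) D' := by
  obtain ⟨r, hr, hrD⟩ := hD.isCompact_closure.exists_cthickening_subset_open hD' hcl
  filter_upwards [hA.near (r / 2) (by positivity),
    hA.lim.eventually_lt_const (show (0 : ℝ) < r / 2 by positivity)] with n h1 h2 f hf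
  have hδ := hA.pos n
  rw [mem_Fs hδ hb]
  obtain ⟨z, hz, hzf⟩ := h1 f hf
  intro w hw
  refine hrD (Metric.mem_cthickening_of_dist_le w z r _ (subset_closure hz) ?_)
  have h3 : dist w (δ n * f.1, δ n * f.2) ≤ δ n := by
    obtain ⟨a1, a2, a3, a4⟩ := hw
    rw [Prod.dist_eq, Real.dist_eq, Real.dist_eq]
    refine max_le (abs_le.2 ⟨?_, ?_⟩) (abs_le.2 ⟨?_, ?_⟩) <;> simp only <;> nlinarith
  have h4 := dist_triangle w (δ n * f.1, δ n * f.2) z
  linarith

end approx

/-- The convergence of the moments of single test functions, for face approximations. -/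
def MomF (t κ : ℝ) (D : Set (ℝ × ℝ)) : Prop :=
  ∀ (δ : ℕ → ℝ) (F : ℕ → Finset (ℤ × ℤ)), FaceApprox D δ F →
    ∀ φ : ℝ × ℝ → ℝ, PT.TestOn D φ → ∀ k : ℕ,
      Tendsto (fun n => ze (1 / t) (F n) (fun x => zf (F n) (δ n) φ x ^ k)) atTop
        (𝓝 (gm (κ * PT.V D φ) k))

theorem momF_of {t κ : ℝ} (ht : 0 < t) (hκ : 0 < κ) (hm : S_mono (1 / t))
    (hin : ∀ δ : ℕ → ℝ, (∀ n, 0 < δ n) → Tendsto δ atTop (𝓝 0) →
      S_mb (1 / t) δ ∧ S_l2 (1 / t) δ ∧ S_dec (1 / t) δ ∧ S_xst (1 / t) κ δ)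
    {D : Set (ℝ × ℝ)} (hC : Regular D) : MomF t κ D :=
  fun δ F hA φ hφ k => squeeze' hm hA.pos (key
    { cpos := by positivity
      κpos := hκ
      δpos := hA.pos
      δlim := hA.lim
      mono := hm
      mb := (hin δ hA.pos hA.lim).1
      l2 := (hin δ hA.pos hA.lim).2.1
      dec := (hin δ hA.pos hA.lim).2.2.1
      xst := (hin δ hA.pos hA.lim).2.2.2 }) hC.isOpen subset_rfl
    hC.isBounded (fun _ hψ hψ0 _ hη => regular_stab hC hψ hψ0 hη)
    (fun D' _ hb hD' => face_in hA D' hb hD') (face_out hC.isBounded hA) hφ k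

/-- The tested heights. -/
noncomputable def vecF {k : ℕ} (F : Finset (ℤ × ℤ)) (δ : ℝ)
    (φ : Fin k → ℝ × ℝ → ℝ) (x : Site → ℤ) : EuclideanSpace ℝ (Fin k) :=
  WithLp.toLp 2 (fun j => Dom.fldD F (fun v => (x v : ℝ) / 2) δ (φ j))

theorem height_law {t κ s : ℝ} (ht : 0 < t) (hs : κ = s ^ 2 * (2 * Real.pi))
    {D : Set (ℝ × ℝ)} (hb : Bornology.IsBounded D) (hmom : MomF t κ D) {δ : ℕ → ℝ}
    {F : ℕ → Finset (ℤ × ℤ)} (hA : FaceApprox D δ F)
    [hprob : ∀ n, IsProbabilityMeasure (heightLaw t (F n))] {k : ℕ}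
    {φ : Fin k → ℝ × ℝ → ℝ} (hφ : ∀ j, PT.TestOn D (φ j)) :
    (Matrix.of (fun i j => s ^ 2 * (2 * Real.pi * Dom.dirCov D (φ i) (φ j)))).PosSemidef ∧
    TendstoInDistribution (fun (n : ℕ) (x : Site → ℤ) => vecF (F n) (δ n) φ x)
      atTop (id : EuclideanSpace ℝ (Fin k) → EuclideanSpace ℝ (Fin k))
      (fun n => heightLaw t (F n))
      (multivariateGaussian 0
        (Matrix.of (fun i j => s ^ 2 * (2 * Real.pi * Dom.dirCov D (φ i) (φ j))))) := by
  have hc : 0 ≤ s ^ 2 * (2 * Real.pi) := by positivity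
  have e : (Matrix.of (fun i j => s ^ 2 * (2 * Real.pi * Dom.dirCov D (φ i) (φ j)))) =
      Matrix.of (fun i j => s ^ 2 * (2 * Real.pi) * Dom.dirCov D (φ i) (φ j)) := by
    ext i j
    simp only [Matrix.of_apply]
    ring
  rw [e]
  refine vec_conv hb hc (fun n => heightLaw t (F n))
    (fun n x φ => Dom.fldD (F n) (fun v => (x v : ℝ) / 2) (δ n) φ)
    (fun n σ φ ψ => fldD_add _ _ _ _ _)
    (fun n σ a φ => fldD_smul _ _ _ _ _) (fun n φ => heightLaw_aem ht _ _) ?_ k φ hφ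
  intro ψ hψ
  have key := charfun_of_moments (l := atTop) (fun n => heightLaw t (F n))
    (fun n x => Dom.fldD (F n) (fun v => (x v : ℝ) / 2) (δ n) ψ)
    (fun n j => heightLaw_integrable ht _ _)
    (v := κ * PT.V D ψ) (fun j => by
      refine (hmom δ F hA ψ hψ j).congr fun n => ?_
      exact (heightLaw_integral ht (F n) _).symm)
  have e1 : ((-(κ * PT.V D ψ / 2) : ℝ) : ℂ) = -((s ^ 2 * (2 * Real.pi) * PT.V D ψ : ℝ) : ℂ) / 2 := by
    rw [hs]; push_cast; ring
  rw [e1] at key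
  refine key.congr fun n => ?_
  refine integral_congr_ae (ae_of_all _ fun σ => ?_)
  simp only []
  rw [mul_comm]

theorem vecF_bd {t κ : ℝ} (ht : 0 < t)
    {D : Set (ℝ × ℝ)} (hmom : MomF t κ D) {δ : ℕ → ℝ} {F : ℕ → Finset (ℤ × ℤ)}
    (hA : FaceApprox D δ F)
    {k : ℕ} {φ : Fin k → ℝ × ℝ → ℝ} (hφ : ∀ j, PT.TestOn D (φ j)) (r : ℕ) :
    ∃ K : ℝ, ∀ᶠ n in atTop,
      ∫ x, (1 + ‖vecF (F n) (δ n) φ x‖) ^ (2 * (r + 1)) ∂heightLaw t (F n) ≤ K := by
  have hprob : ∀ n, IsProbabilityMeasure (heightLaw t (F n)) := fun n => heightLaw_prob ht (F n)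
  refine ⟨2 ^ (r + 1) * (2 ^ r * (1 + (k : ℝ) ^ r *
    ∑ j, (gm (κ * PT.V D (φ j)) (2 * (r + 1)) + 1))), ?_⟩
  have h1 : ∀ j, ∀ᶠ n in atTop,
      ∫ x : Site → ℤ, Dom.fldD (F n) (fun v => (x v : ℝ) / 2) (δ n) (φ j) ^ (2 * (r + 1))
      ∂heightLaw t (F n) ≤ gm (κ * PT.V D (φ j)) (2 * (r + 1)) + 1 := by
    intro j
    have h2 := (hmom δ F hA (φ j) (hφ j) (2 * (r + 1))).eventually_lt_const
      (show gm (κ * PT.V D (φ j)) (2 * (r + 1)) < gm (κ * PT.V D (φ j)) (2 * (r + 1)) + 1 by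
        linarith)
    filter_upwards [h2] with n hn
    rw [heightLaw_integral ht]
    exact hn.le
  filter_upwards [eventually_all.2 h1] with n hn
  exact bd_of_coord (fun f => heightLaw_integrable ht _ _) hn

/-- The theorem for regular sets, from the moments. -/
theorem heightConv_of_mom {t κ s : ℝ} (ht : 0 < t) (hs : κ = s ^ 2 * (2 * Real.pi))
    {D : Set (ℝ × ℝ)} (hb : Bornology.IsBounded D) (hmom : MomF t κ D) : HeightConv t s D := by
  intro δ F hA
  have hprob : ∀ n, IsProbabilityMeasure (heightLaw t (F n)) := fun n => heightLaw_prob ht (F n)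
  refine ⟨hprob, fun k φ hφ => ?_⟩
  obtain ⟨h1, h2⟩ := height_law ht hs hb hmom hA hφ
  refine ⟨h1, h2, fun G hG hGC => ?_⟩
  obtain ⟨C, q, hGC⟩ := hGC
  exact tendsto_poly h2 (fun n f => heightLaw_integrable ht _ _) (vecF_bd ht hmom hA hφ)
    (gauss_int _) hG hGC

end Vale.Agent.P145.H821
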