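import Mathlib

/-!
The exterior of a bounded open set of the plane (the unbounded component of the complement of its
closure), its hull, and Carathéodory open sets.
-/

namespace Vale.Agent.P145.H821

open Set Filter Topology Metric Bornology

/-- The exterior of `D`: the points outside the closure of `D` whose connected component in the
complement of the closure of `D` is unbounded. -/
def outer (D : Set (ℝ × ℝ)) : Set (ℝ × ℝ) :=
  {z | z ∉ closure D ∧ ¬ IsBounded (connectedComponentIn (closure D)ᶜ z)}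

variable {D : Set (ℝ × ℝ)}

theorem outer_subset (D : Set (ℝ × ℝ)) : outer D ⊆ (closure D)ᶜ := fun _ h => h.1

/-- A preconnected subset of the complement of the closure which meets `outer D` is contained in
`outer D`. -/
theorem subset_outer {S : Set (ℝ × ℝ)} (hS : IsPreconnected S) (hSD : S ⊆ (closure D)ᶜ)
    {z : ℝ × ℝ} (hz : z ∈ S) (hzo : z ∈ outer D) : S ⊆ outer D := by
  intro x hx
  have h1 : S ⊆ connectedComponentIn (closure D)ᶜ z := hS.subset_connectedComponentIn hz hSD
  have h2 : connectedComponentIn (closure D)ᶜ x = connectedComponentIn (closure D)ᶜ z :=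
    (connectedComponentIn_eq (h1 hx)).symm
  exact ⟨hSD hx, by rw [h2]; exact hzo.2⟩

theorem mem_outer_of_unbounded {S : Set (ℝ × ℝ)} (hS : IsPreconnected S)
    (hSD : S ⊆ (closure D)ᶜ) (hb : ¬ IsBounded S) {z : ℝ × ℝ} (hz : z ∈ S) : z ∈ outer D :=
  ⟨hSD hz, fun h => hb (h.subset (hS.subset_connectedComponentIn hz hSD))⟩

theorem isOpen_outer (D : Set (ℝ × ℝ)) : IsOpen (outer D) := by
  rw [isOpen_iff_mem_nhds]
  intro z hz
  have h1 : connectedComponentIn (closure D)ᶜ z ∈ 𝓝 z :=
    (isClosed_closure.isOpen_compl.connectedComponentIn).mem_nhds (mem_connectedComponentIn hz.1)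
  refine Filter.mem_of_superset h1 ?_
  exact subset_outer isPreconnected_connectedComponentIn
    (connectedComponentIn_subset _ _) (mem_connectedComponentIn hz.1) hz

/-- The ray `{c • w : 1 ≤ c}`. -/
def ray (w : ℝ × ℝ) : Set (ℝ × ℝ) := (fun c : ℝ => c • w) '' Ici (1 : ℝ)

theorem mem_ray (w : ℝ × ℝ) : w ∈ ray w := ⟨1, self_mem_Ici, one_smul _ _⟩

theorem isPreconnected_ray (w : ℝ × ℝ) : IsPreconnected (ray w) :=
  isPreconnected_Ici.image _ (continuous_id.smul continuous_const).continuousOn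

theorem norm_le_of_mem_ray {w z : ℝ × ℝ} (hz : z ∈ ray w) : ‖w‖ ≤ ‖z‖ := by
  obtain ⟨c, hc, rfl⟩ := hz
  have hc' : (1 : ℝ) ≤ c := hc
  simp only
  rw [norm_smul, Real.norm_of_nonneg (by linarith)]
  nlinarith [norm_nonneg w]

theorem not_isBounded_ray {w : ℝ × ℝ} (hw : 0 < ‖w‖) : ¬ IsBounded (ray w) := by
  intro h
  obtain ⟨R, hR⟩ := h.exists_norm_le
  have h0 : 0 ≤ R := (norm_nonneg _).trans (hR w (mem_ray w))
  have h1 : (1 : ℝ) ≤ R / ‖w‖ + 1 := by
    have : 0 ≤ R / ‖w‖ := div_nonneg h0 hw.le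
    linarith
  have h2 := hR ((R / ‖w‖ + 1) • w) ⟨R / ‖w‖ + 1, h1, rfl⟩
  rw [norm_smul, Real.norm_of_nonneg (by linarith), add_mul, div_mul_cancel₀ _ hw.ne'] at h2
  linarith

/-- Points far away belong to the exterior. -/
theorem far_mem_outer {R : ℝ} (hR0 : 0 ≤ R) (hR : closure D ⊆ closedBall 0 R) {w : ℝ × ℝ}
    (hw : R < ‖w‖) : w ∈ outer D := by
  refine mem_outer_of_unbounded (isPreconnected_ray w) (fun z hz hzD => ?_)
    (not_isBounded_ray (hR0.trans_lt hw)) (mem_ray w)
  have h1 := norm_le_of_mem_ray hz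
  have h2 := mem_closedBall_zero_iff.1 (hR hzD)
  linarith

theorem exists_bound (hb : IsBounded D) :
    ∃ R : ℝ, 0 ≤ R ∧ closure D ⊆ closedBall 0 R ∧ (outer D)ᶜ ⊆ closedBall 0 R := by
  obtain ⟨R, hR⟩ := hb.closure.subset_closedBall (0 : ℝ × ℝ)
  have h1 : closure D ⊆ closedBall 0 (max R 0) :=
    hR.trans (closedBall_subset_closedBall (le_max_left _ _))
  refine ⟨max R 0, le_max_right _ _, h1, fun z hz => ?_⟩
  rw [mem_closedBall_zero_iff]
  by_contra h
  exact hz (far_mem_outer (le_max_right _ _) h1 (not_le.1 h))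

/-- Every point of the exterior can be joined to infinity at a positive distance from the hull. -/
theorem reach (hb : IsBounded D) {y : ℝ × ℝ} (hy : y ∈ outer D) :
    ∃ ε : ℝ, 0 < ε ∧ ∃ S : Set (ℝ × ℝ), IsPreconnected S ∧ ¬ IsBounded S ∧ ball y ε ⊆ S ∧
      ∀ z ∈ S, z ∉ thickening ε (outer D)ᶜ := by
  obtain ⟨R, hR0, hR, hRo⟩ := exists_bound hb
  set C := connectedComponentIn (closure D)ᶜ y with hC
  have hyC : y ∈ C := mem_connectedComponentIn hy.1
  have hCo : IsOpen C := isClosed_closure.isOpen_compl.connectedComponentIn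
  have hCout : C ⊆ outer D := subset_outer isPreconnected_connectedComponentIn
    (connectedComponentIn_subset _ _) hyC hy
  obtain ⟨w, hwC, hw⟩ : ∃ w ∈ C, R + 1 < ‖w‖ := by
    by_contra hcon
    push Not at hcon
    exact hy.2 ((isBounded_closedBall (x := (0 : ℝ × ℝ)) (r := R + 1)).subset fun z hz =>
      mem_closedBall_zero_iff.2 (hcon z hz))
  have hpc : IsPathConnected C := hCo.isConnected_iff_isPathConnected.1
    ⟨⟨y, hyC⟩, isPreconnected_connectedComponentIn⟩
  have hj := hpc.joinedIn y hyC w hwC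
  set K : Set (ℝ × ℝ) := range hj.somePath with hK
  have hKc : IsCompact K := isCompact_range hj.somePath.continuous
  have hKC : K ⊆ C := by
    rintro _ ⟨t, rfl⟩
    exact hj.somePath_mem t
  have hKp : IsPreconnected K := isPreconnected_range hj.somePath.continuous
  have hyK : y ∈ K := ⟨0, hj.somePath.source⟩
  have hwK : w ∈ K := ⟨1, hj.somePath.target⟩
  obtain ⟨δ, hδ, hδK⟩ := hKc.exists_thickening_subset_open (isOpen_outer D) (hKC.trans hCout)
  set ε : ℝ := min δ 1 / 2 with hε
  have hmin : 0 < min δ 1 := lt_min hδ one_pos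
  have hε0 : 0 < ε := by positivity
  have hε1 : 2 * ε ≤ δ := by
    have := min_le_left δ 1
    linarith
  have hε2 : 2 * ε ≤ 1 := by
    have := min_le_right δ 1
    linarith
  refine ⟨ε, hε0, ball y ε ∪ (K ∪ ray w), ?_, ?_, subset_union_left, ?_⟩
  · exact (convex_ball y ε).isPreconnected.union y (mem_ball_self hε0) (Or.inl hyK)
      (hKp.union w hwK (mem_ray w) (isPreconnected_ray w))
  · intro h
    exact not_isBounded_ray (w := w) (by linarith)
      (h.subset (subset_union_right.trans subset_union_right))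
  · intro z hz hzt
    obtain ⟨q, hq, hzq⟩ := mem_thickening_iff.1 hzt
    rcases hz with hz | hz | hz
    · refine hq (hδK ?_)
      rw [mem_thickening_iff]
      refine ⟨y, hyK, ?_⟩
      have h1 := dist_triangle q z y
      rw [dist_comm q z] at h1
      have h2 := mem_ball.1 hz
      linarith
    · refine hq (hδK ?_)
      rw [mem_thickening_iff]
      exact ⟨z, hz, by rw [dist_comm]; linarith⟩
    · refine hq (far_mem_outer hR0 hR ?_)
      have h1 := norm_le_of_mem_ray hz
      have h2 : ‖z‖ ≤ ‖q‖ + dist z q := by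
        rw [dist_eq_norm]
        have := norm_add_le q (z - q)
        rwa [add_sub_cancel] at this
      linarith

/-- The hull `(outer D)ᶜ` without its boundary. -/
def core (D : Set (ℝ × ℝ)) : Set (ℝ × ℝ) := (closure (outer D))ᶜ

theorem isOpen_core (D : Set (ℝ × ℝ)) : IsOpen (core D) := isClosed_closure.isOpen_compl

theorem core_subset (D : Set (ℝ × ℝ)) : core D ⊆ (outer D)ᶜ :=
  compl_subset_compl.2 subset_closure

theorem isBounded_hull (hb : IsBounded D) : IsBounded (outer D)ᶜ := by
  obtain ⟨R, -, -, hR⟩ := exists_bound hb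
  exact isBounded_closedBall.subset hR

theorem isBounded_core (hb : IsBounded D) : IsBounded (core D) :=
  (isBounded_hull hb).subset (core_subset D)

theorem closure_subset_hull (D : Set (ℝ × ℝ)) : closure D ⊆ (outer D)ᶜ :=
  fun _ hx hxo => hxo.1 hx

theorem subset_core (hD : IsOpen D) : D ⊆ core D := by
  rw [core, ← interior_compl]
  exact interior_maximal (subset_closure.trans (closure_subset_hull D)) hD

theorem frontier_core (D : Set (ℝ × ℝ)) : frontier (core D) ⊆ closure (outer D) := by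
  rw [core, frontier_compl]
  exact frontier_subset_closure.trans isClosed_closure.closure_eq.subset

theorem hull_subset (hD : IsOpen D) : (outer D)ᶜ ⊆ closure (core D) := by
  intro x hx
  by_cases hxD : x ∈ closure D
  · exact closure_mono (subset_core hD) hxD
  · refine subset_closure ?_
    rw [core, ← interior_compl, mem_interior_iff_mem_nhds]
    have h1 : connectedComponentIn (closure D)ᶜ x ∈ 𝓝 x :=
      (isClosed_closure.isOpen_compl.connectedComponentIn).mem_nhds
        (mem_connectedComponentIn hxD)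
    refine Filter.mem_of_superset h1 fun y hy hyo => ?_
    exact hx (subset_outer isPreconnected_connectedComponentIn (connectedComponentIn_subset _ _)
      hy hyo (mem_connectedComponentIn hxD))

/-- A bounded Carathéodory open set: a bounded open set each of whose boundary points is a limit
of points of the exterior. -/
structure Caratheodory (D : Set (ℝ × ℝ)) : Prop where
  isOpen : IsOpen D
  isBounded : IsBounded D
  frontier_subset : frontier D ⊆ closure (outer D)

/-- A point of `D` near the complement of `D` is near the boundary. -/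
theorem exists_frontier_near (hD : IsOpen D) {z w : ℝ × ℝ} (hz : z ∈ D) (hw : w ∉ D) :
    ∃ v ∈ frontier D, dist z v ≤ dist z w := by
  have h1 : (segment ℝ z w ∩ frontier D).Nonempty := by
    by_contra hcon
    rw [not_nonempty_iff_eq_empty] at hcon
    have h2 : segment ℝ z w ⊆ D ∪ (closure D)ᶜ := by
      intro u hu
      by_cases h3 : u ∈ D
      · exact Or.inl h3
      · right
        intro h4
        have : u ∈ segment ℝ z w ∩ frontier D := ⟨hu, h4, by rwa [hD.interior_eq]⟩
        rw [hcon] at this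
        exact this
    have h3 := IsPreconnected.subset_left_of_subset_union hD isClosed_closure.isOpen_compl
      (Set.disjoint_left.2 fun u h4 h5 => h5 (subset_closure h4)) h2
      ⟨z, left_mem_segment ℝ z w, hz⟩ (convex_segment z w).isPreconnected
    exact hw (h3 (right_mem_segment ℝ z w))
  obtain ⟨v, hv, hvf⟩ := h1
  refine ⟨v, hvf, ?_⟩
  obtain ⟨c, d, hc, hd, hcd, rfl⟩ := hv
  obtain rfl : c = 1 - d := by linarith
  rw [dist_eq_norm, dist_eq_norm]
  have : z - ((1 - d) • z + d • w) = d • (z - w) := by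
    simp only [sub_smul, smul_sub, one_smul]; abel
  rw [this, norm_smul, Real.norm_eq_abs, abs_of_nonneg hd]
  calc d * ‖z - w‖ ≤ 1 * ‖z - w‖ := mul_le_mul_of_nonneg_right (by linarith) (norm_nonneg _)
    _ = ‖z - w‖ := one_mul _

/-- Uniform version of `reach` near the boundary of the core. -/
theorem reach_unif (hb : IsBounded D) {R : ℝ} (hR : 0 < R) :
    ∃ s : ℝ, 0 < s ∧ ∀ x ∈ frontier (core D), ∃ S : Set (ℝ × ℝ), IsPreconnected S ∧
      ¬ IsBounded S ∧ (∃ y ∈ S, dist x y < R) ∧ ∀ z ∈ S, z ∉ thickening s (core D) := by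
  have hK : IsCompact (frontier (core D)) :=
    isCompact_of_isClosed_isBounded isClosed_frontier
      ((isBounded_core hb).closure.subset frontier_subset_closure)
  have hex : ∀ x ∈ frontier (core D), ∃ y ∈ outer D, dist x y < R / 2 := fun x hx =>
    Metric.mem_closure_iff.1 (frontier_core D hx) (R / 2) (by positivity)
  choose! f hf hfd using hex
  obtain ⟨t, ht, htc⟩ := hK.elim_nhds_subcover (fun x => ball x (R / 2))
    fun x _ => ball_mem_nhds x (by positivity)
  have hr : ∀ x ∈ frontier (core D), ∃ ε : ℝ, 0 < ε ∧ ∃ S : Set (ℝ × ℝ), IsPreconnected S ∧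
      ¬ IsBounded S ∧ ball (f x) ε ⊆ S ∧ ∀ z ∈ S, z ∉ thickening ε (outer D)ᶜ :=
    fun x hx => reach hb (hf x hx)
  choose! e he S hS1 hS2 hS3 hS4 using hr
  rcases t.eq_empty_or_nonempty with h0 | h0
  · refine ⟨1, one_pos, fun x hx => ?_⟩
    have := htc hx
    rw [h0] at this
    simp at this
  · obtain ⟨m, hm, hmin⟩ := t.exists_min_image e h0
    refine ⟨e m, he m (ht m hm), fun x hx => ?_⟩
    obtain ⟨i, hi, hxi⟩ := mem_iUnion₂.1 (htc hx)
    refine ⟨S i, hS1 i (ht i hi), hS2 i (ht i hi),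
      ⟨f i, hS3 i (ht i hi) (mem_ball_self (he i (ht i hi))), ?_⟩, fun z hz hzt => ?_⟩
    · have h1 := hfd i (ht i hi)
      have h2 := mem_ball.1 hxi
      have h3 := dist_triangle x i (f i)
      linarith
    · refine hS4 i (ht i hi) z hz ?_
      exact thickening_mono (hmin i hi) _ (thickening_subset_of_subset _ (core_subset D) hzt)

/-- Sets close to the hull do not separate the points outside a neighbourhood of the hull from
infinity. -/
theorem reach_out (hb : IsBounded D) {U : Set (ℝ × ℝ)} (hU : IsOpen U) (hDU : (outer D)ᶜ ⊆ U) :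
    ∃ ε : ℝ, 0 < ε ∧ ∀ z ∉ U, ∃ S : Set (ℝ × ℝ), IsPreconnected S ∧ ¬ IsBounded S ∧ z ∈ S ∧
      ∀ w ∈ S, w ∉ thickening ε (outer D)ᶜ := by
  obtain ⟨R, hR0, hR, hRo⟩ := exists_bound hb
  have hK : IsCompact (Uᶜ ∩ closedBall (0 : ℝ × ℝ) (R + 1)) :=
    (isCompact_closedBall _ _).inter_left hU.isClosed_compl
  have hout : ∀ x ∈ Uᶜ ∩ closedBall (0 : ℝ × ℝ) (R + 1), x ∈ outer D := fun x hx => by
    by_contra h
    exact hx.1 (hDU h)
  have hr : ∀ x ∈ Uᶜ ∩ closedBall (0 : ℝ × ℝ) (R + 1), ∃ ε : ℝ, 0 < ε ∧ ∃ S : Set (ℝ × ℝ),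
      IsPreconnected S ∧ ¬ IsBounded S ∧ ball x ε ⊆ S ∧ ∀ z ∈ S, z ∉ thickening ε (outer D)ᶜ :=
    fun x hx => reach hb (hout x hx)
  choose! e he S hS1 hS2 hS3 hS4 using hr
  obtain ⟨t, ht, htc⟩ := hK.elim_nhds_subcover (fun x => ball x (e x))
    fun x hx => ball_mem_nhds x (he x hx)
  obtain ⟨ε, hε, hε1, hεt⟩ : ∃ ε : ℝ, 0 < ε ∧ ε ≤ 1 ∧ ∀ i ∈ t, ε ≤ e i := by
    rcases t.eq_empty_or_nonempty with h0 | h0
    · exact ⟨1, one_pos, le_rfl, fun i hi => by rw [h0] at hi; simp at hi⟩
    · obtain ⟨m, hm, hmin⟩ := t.exists_min_image e h0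
      exact ⟨min (e m) 1, lt_min (he m (ht m hm)) one_pos, min_le_right _ _,
        fun i hi => (min_le_left _ _).trans (hmin i hi)⟩
  refine ⟨ε, hε, fun z hz => ?_⟩
  by_cases hzR : ‖z‖ ≤ R + 1
  · obtain ⟨i, hi, hzi⟩ := mem_iUnion₂.1 (htc ⟨hz, mem_closedBall_zero_iff.2 hzR⟩)
    exact ⟨S i, hS1 i (ht i hi), hS2 i (ht i hi), hS3 i (ht i hi) hzi, fun w hw hwt =>
      hS4 i (ht i hi) w hw (thickening_mono (hεt i hi) _ hwt)⟩
  · push Not at hzR
    refine ⟨ray z, isPreconnected_ray z, not_isBounded_ray (by linarith), mem_ray z,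
      fun w hw hwt => ?_⟩
    obtain ⟨q, hq, hwq⟩ := mem_thickening_iff.1 hwt
    have h1 := norm_le_of_mem_ray hw
    have h2 := mem_closedBall_zero_iff.1 (hRo hq)
    have h3 : ‖w‖ ≤ ‖q‖ + dist w q := by
      rw [dist_eq_norm]
      have := norm_add_le q (w - q)
      rwa [add_sub_cancel] at this
    linarith

end Vale.Agent.P145.H821
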