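import Vale.Agent.P145.Bdl.FC
import Vale.Agent.P145.H821.Outer

/-!
The squeeze for Carathéodory open sets.
-/

namespace Vale.Agent.P145.H821

open Filter Topology Set MeasureTheory
open Vale.Agent.P145.PT Vale.Agent.P145.FP Vale.Agent.P145.Dom Vale.Agent.P145.Top

/-- The exterior condition holds for the core. -/
theorem ext_core {D : Set (ℝ × ℝ)} (hb : Bornology.IsBounded D) : Ext (core D) := by
  intro R hR
  obtain ⟨s, hs, h⟩ := reach_unif hb (R := R / 4) (by positivity)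
  refine ⟨s, hs, R / 4, by positivity, fun x hx hxd r hr => ?_⟩
  have hr0 : 0 < r := hR.trans_le hr
  have hne := compl_ne (isBounded_core hb)
  obtain ⟨w, hw, hxw⟩ := (Metric.infDist_lt_iff hne).1 hxd
  obtain ⟨v, hv, hxv⟩ := exists_frontier_near (isOpen_core D) hx hw
  obtain ⟨S, hS1, hS2, ⟨y, hyS, hvy⟩, hS4⟩ := h v hv
  have hfc : Continuous (fun p : ℝ × ℝ => sqn (p - x)) :=
    sqn_smooth.continuous.comp (continuous_id.sub continuous_const)
  have hy : sqn (y - x) ≤ r ^ 2 := by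
    have h1 := sqn_le_of_norm (y - x)
    have h2 := dist_triangle x v y
    rw [← dist_eq_norm, dist_comm] at h1
    have h3 : dist x y ≤ R / 2 := by linarith
    have h4 : dist x y ^ 2 ≤ (R / 2) ^ 2 := pow_le_pow_left₀ dist_nonneg h3 2
    nlinarith
  obtain ⟨u, hu, hur⟩ : ∃ u ∈ S, r ^ 2 ≤ sqn (u - x) := by
    by_contra hcon
    push Not at hcon
    refine hS2 ((Metric.isBounded_ball (x := x) (r := r)).subset fun u hu => ?_)
    rw [Metric.mem_ball, dist_eq_norm]
    exact lt_of_pow_lt_pow_left₀ 2 hr0.le ((norm_sq_le_sqn (u - x)).trans_lt (hcon u hu))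
  obtain ⟨p, hp, hpr⟩ := hS1.intermediate_value hyS hu hfc.continuousOn ⟨hy, hur⟩
  exact ⟨p, hpr, hS4 p hp⟩

/-- The restriction of a test function on the core to a Carathéodory open set. -/
theorem test_indicator {D : Set (ℝ × ℝ)} (hC : Caratheodory D) {ψ : ℝ × ℝ → ℝ}
    (hψ : TestOn (core D) ψ) : TestOn D (D.indicator ψ) ∧
      (∀ z ∈ D, D.indicator ψ =ᶠ[𝓝 z] ψ) ∧ ∀ z ∉ D, D.indicator ψ =ᶠ[𝓝 z] fun _ => 0 := by
  have h1 : ∀ z ∈ D, D.indicator ψ =ᶠ[𝓝 z] ψ := by
    intro z hz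
    filter_upwards [hC.isOpen.mem_nhds hz] with y hy
    exact indicator_of_mem hy ψ
  have h2 : ∀ z ∉ D, D.indicator ψ =ᶠ[𝓝 z] fun _ => 0 := by
    intro z hz
    by_cases hzc : z ∈ closure D
    · have hzf : z ∈ frontier D := ⟨hzc, by rwa [hC.isOpen.interior_eq]⟩
      have hzo : z ∉ tsupport ψ := fun h => (hψ.2.2 h) (hC.frontier_subset hzf)
      filter_upwards [(isClosed_tsupport ψ).isOpen_compl.mem_nhds hzo] with y hy
      by_cases hyD : y ∈ D
      · rw [indicator_of_mem hyD]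
        exact image_eq_zero_of_notMem_tsupport hy
      · exact indicator_of_notMem hyD ψ
    · filter_upwards [isClosed_closure.isOpen_compl.mem_nhds hzc] with y hy
      exact indicator_of_notMem (fun h => hy (subset_closure h)) ψ
  have hsub : tsupport (D.indicator ψ) ⊆ tsupport ψ := by
    refine closure_mono fun z hz => ?_
    intro h0
    refine hz ?_
    by_cases hzD : z ∈ D
    · rw [indicator_of_mem hzD, h0]
    · exact indicator_of_notMem hzD ψ
  refine ⟨⟨?_, ?_, ?_⟩, h1, h2⟩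
  · refine contDiff_iff_contDiffAt.2 fun z => ?_
    by_cases hz : z ∈ D
    · exact hψ.1.contDiffAt.congr_of_eventuallyEq (h1 z hz)
    · exact contDiffAt_const.congr_of_eventuallyEq (h2 z hz)
  · exact hψ.2.1.of_isClosed_subset (isClosed_tsupport _) hsub
  · intro z hz
    by_contra hzD
    exact (notMem_tsupport_iff_eventuallyEq.2 (h2 z hzD)) hz

theorem V_core_le {D : Set (ℝ × ℝ)} (hC : Caratheodory D) {φ : ℝ × ℝ → ℝ} (hφ : TestOn D φ) :
    V (core D) φ ≤ V D φ := by
  refine V_le fun ψ hψ => ?_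
  obtain ⟨hT, h1, h2⟩ := test_indicator hC hψ
  refine le_trans ?_ (le_V hC.isBounded hφ hT)
  have e1 : ∫ z, φ z * D.indicator ψ z = ∫ z, φ z * ψ z := by
    congr 1; funext z
    by_cases hz : z ∈ D
    · rw [indicator_of_mem hz]
    · have : φ z = 0 := image_eq_zero_of_notMem_tsupport fun h => hz (hφ.2.2 h)
      rw [this]; simp
  have e2 : energy (D.indicator ψ) ≤ energy ψ := by
    refine integral_mono hT.intE hψ.intE fun z => ?_
    simp only
    by_cases hz : z ∈ D
    · have h3 := (h1 z hz).fderiv_eq (𝕜 := ℝ)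
      unfold PT.dx PT.dy
      rw [h3]
    · have h3 := (h2 z hz).fderiv_eq (𝕜 := ℝ)
      have h4 : fderiv ℝ (fun _ : ℝ × ℝ => (0 : ℝ)) z = 0 := by simp
      unfold PT.dx PT.dy
      rw [h3, h4]
      have h5 : 0 ≤ fderiv ℝ ψ z (1, 0) ^ 2 + fderiv ℝ ψ z (0, 1) ^ 2 := by positivity
      simpa using h5
  rw [e1]
  linarith

/-- Outer stability of Carathéodory open sets. -/
theorem car_stab {D : Set (ℝ × ℝ)} (hC : Caratheodory D) {φ : ℝ × ℝ → ℝ} (hφ : TestOn D φ)
    (hφ0 : ∀ z, 0 ≤ φ z) {η : ℝ} (hη : 0 < η) :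
    ∃ s : ℝ, 0 < s ∧ V (Metric.thickening s (core D)) φ ≤ V D φ + η := by
  obtain ⟨s, hs, h⟩ := stab (isOpen_core D) (isBounded_core hC.isBounded)
    (ext_core hC.isBounded) (hφ.mono (subset_core hC.isOpen)) hφ0 hη
  exact ⟨s, hs, h.trans (by linarith [V_core_le hC hφ])⟩

section geo

variable {D : Set (ℝ × ℝ)} {δ : ℕ → ℝ} {N : ℕ → ℕ} {p : ∀ n, ZMod (N n) → ℤ × ℤ}
  {F : ℕ → Finset (ℤ × ℤ)}

/-- Eventually all enclosed squares are contained in a given neighbourhood of the hull. -/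
theorem approx_hull (hD : IsOpen D) (hb : Bornology.IsBounded D) (h : Dom.Approx D δ N p F)
    {U : Set (ℝ × ℝ)} (hU : IsOpen U) (hDU : (outer D)ᶜ ⊆ U) :
    ∀ᶠ n in atTop, ∀ f ∈ F n, Dom.sq (δ n) f ⊆ U := by
  have hc : IsCompact (outer D)ᶜ :=
    Metric.isCompact_of_isClosed_isBounded (isOpen_outer D).isClosed_compl (isBounded_hull hb)
  obtain ⟨s, hs, hsU⟩ := hc.exists_cthickening_subset_open hU hDU
  obtain ⟨ε, hε, hεs⟩ := reach_out hb (U := Metric.thickening s (outer D)ᶜ)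
    Metric.isOpen_thickening (Metric.self_subset_thickening hs _)
  filter_upwards [trace_near hD hb h hε] with n hn f hf
  have hδ := h.pos n
  have h1 := sq_subset_closure hδ hf
  have h2 := inn_subset_enclosed hδ (h.poly n) (h.encl n)
  have h3 : enclosed (trace (δ n) (p n)) ⊆ Metric.thickening s (outer D)ᶜ := by
    intro z hz
    by_contra hzU
    obtain ⟨S, hS1, hS2, hzS, hS4⟩ := hεs z hzU
    refine not_mem_enclosed hS1 (fun w hw hwT => hS4 w hw ?_) hS2 hzS hz
    exact Metric.thickening_subset_of_subset ε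
      (frontier_subset_closure.trans (closure_subset_hull D)) (hn hwT)
  have h4 : closure (inn (δ n) (F n)) ⊆ Metric.cthickening s (outer D)ᶜ :=
    closure_minimal ((h2.trans h3).trans (Metric.thickening_subset_cthickening _ _))
      Metric.isClosed_cthickening
  exact (h1.trans h4).trans hsU

theorem car_out (hC : Caratheodory D) (h : Dom.Approx D δ N p F) (D' : Set (ℝ × ℝ))
    (hD' : IsOpen D') (hb : Bornology.IsBounded D') (hcl : closure (core D) ⊆ D') :
    ∀ᶠ n in atTop, F n ⊆ Fs (δ n) D' := by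
  filter_upwards [approx_hull hC.isOpen hC.isBounded h hD'
    ((hull_subset hC.isOpen).trans hcl)] with n hn f hf
  rw [mem_Fs (h.pos n) hb]
  exact fun z hz => hn f hf ⟨⟨hz.1, hz.2.1⟩, hz.2.2⟩

end geo

/-- **The squeeze**, with an outer set `G`. -/
theorem squeeze' {c κ : ℝ} {δ : ℕ → ℝ} (hm : S_mono c) (hδ : ∀ n, 0 < δ n)
    (hkey : S_key c κ δ) {D G : Set (ℝ × ℝ)} (hop : IsOpen D) (hDG : D ⊆ G)
    (hbG : Bornology.IsBounded G) (hst : ∀ ψ, TestOn D ψ → (∀ z, 0 ≤ ψ z) → ∀ η : ℝ, 0 < η →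
      ∃ s : ℝ, 0 < s ∧ V (Metric.thickening s G) ψ ≤ V D ψ + η) {F : ℕ → Finset (ℤ × ℤ)}
    (hin : ∀ D' : Set (ℝ × ℝ), IsOpen D' → Bornology.IsBounded D' → closure D' ⊆ D →
      ∀ᶠ n in atTop, Fs (δ n) D' ⊆ F n)
    (hout : ∀ D' : Set (ℝ × ℝ), IsOpen D' → Bornology.IsBounded D' → closure G ⊆ D' →
      ∀ᶠ n in atTop, F n ⊆ Fs (δ n) D')
    {φ : ℝ × ℝ → ℝ} (hφ : TestOn D φ) (k : ℕ) :
    Tendsto (fun n => ze c (F n) (fun x => zf (F n) (δ n) φ x ^ k)) atTop
      (𝓝 (gm (κ * V D φ) k)) := by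
  have hb : Bornology.IsBounded D := hbG.subset hDG
  rw [tendsto_iff_ultrafilter]
  intro U hU
  obtain ⟨p, m, hp, hm', hp0, hm0, hpm⟩ := exists_decomp hop hb hφ
  have hφe : φ = fun z => p z - m z := funext hpm
  set ψ : ℝ × ℝ → ℝ := fun z => p z + m z with hψ
  have hψT : TestOn D ψ := hp.add hm'
  have hψ0 : ∀ z, 0 ≤ ψ z := fun z => add_nonneg (hp0 z) (hm0 z)
  rw [Metric.tendsto_nhds]
  intro ε hε
  -- continuity of the Gaussian moments
  obtain ⟨η1, hη1, hc1⟩ := Metric.continuous_iff.1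
    ((gm_cont k).1.comp (continuous_const.mul continuous_id : Continuous fun v : ℝ => κ * v))
    (V D ψ) (ε / 8) (by positivity)
  obtain ⟨η2, hη2, hc2⟩ := Metric.continuous_iff.1
    ((gm_cont k).1.comp (continuous_const.mul continuous_id : Continuous fun v : ℝ => κ * v))
    (V D φ) (ε / 4) (by positivity)
  set η : ℝ := min η1 η2 / 2 with hη
  have hη0 : 0 < η := by have := lt_min hη1 hη2; positivity
  have hηη1 : η < η1 := by
    have := lt_min hη1 hη2
    have h2 := min_le_left η1 η2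
    linarith
  have hηη2 : η < η2 := by
    have := lt_min hη1 hη2
    have h2 := min_le_right η1 η2
    linarith
  -- inner and outer scales
  obtain ⟨s1, hs1, hV1⟩ := inner_stab hop hb hψT hη0
  obtain ⟨s2, hs2, hV2⟩ := inner_stab hop hb hφ hη0
  obtain ⟨s3, hs3, hT3⟩ := hp.inner hop hb
  obtain ⟨s4, hs4, hT4⟩ := hm'.inner hop hb
  obtain ⟨s5, hs5, hV5⟩ : ∃ s : ℝ, 0 < s ∧ V (Metric.thickening s G) ψ ≤ V D ψ + η :=
    hst ψ hψT hψ0 η hη0
  set g : ℝ := min (min (min s1 s2) (min s3 s4)) s5 / 4 with hg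
  have hmin : 0 < min (min (min s1 s2) (min s3 s4)) s5 :=
    lt_min (lt_min (lt_min hs1 hs2) (lt_min hs3 hs4)) hs5
  have hg0 : 0 < g := by positivity
  have hg1 : 4 * g ≤ s1 := by
    have : min (min (min s1 s2) (min s3 s4)) s5 ≤ s1 :=
      (min_le_left _ _).trans ((min_le_left _ _).trans (min_le_left _ _))
    linarith
  have hg2 : 4 * g ≤ s2 := by
    have : min (min (min s1 s2) (min s3 s4)) s5 ≤ s2 :=
      (min_le_left _ _).trans ((min_le_left _ _).trans (min_le_right _ _))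
    linarith
  have hg3 : 4 * g ≤ s3 := by
    have : min (min (min s1 s2) (min s3 s4)) s5 ≤ s3 :=
      (min_le_left _ _).trans ((min_le_right _ _).trans (min_le_left _ _))
    linarith
  have hg4 : 4 * g ≤ s4 := by
    have : min (min (min s1 s2) (min s3 s4)) s5 ≤ s4 :=
      (min_le_left _ _).trans ((min_le_right _ _).trans (min_le_right _ _))
    linarith
  have hg5 : 4 * g ≤ s5 := by
    have : min (min (min s1 s2) (min s3 s4)) s5 ≤ s5 := min_le_right _ _
    linarith
  -- the families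
  have hSo : (Sout g G).Finite := Sout_finite hg0 hbG
  have hSi : (Sin g D).Finite := by
    refine (Sout_finite hg0 hb).subset fun q hq => ?_
    have hz : ((g * q.1, g * q.2) : ℝ × ℝ) ∈ gsq g q := by
      refine ⟨le_rfl, ?_, le_rfl, ?_⟩ <;> simp only <;> nlinarith
    have h1 := hq _ hz
    exact ⟨_, hz, (dd_pos hop hb).1 (by linarith)⟩
  obtain ⟨so, hso, hGo⟩ := hkey 0 (g / 4) _ (nest_gun hg0 hSo) (gun_ball hSo) U hU
  obtain ⟨si, hsi, hGi⟩ := hkey 0 (g / 4) _ (nest_gun hg0 hSi) (gun_ball hSi) U hU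
  set Do := Metric.thickening so (gun g (Sout g G)) with hDo
  set Di := Metric.thickening si (gun g (Sin g D)) with hDi
  have hDob : Bornology.IsBounded Do := (isCompact_gun hSo).isBounded.thickening
  have hDib : Bornology.IsBounded Di := (isCompact_gun hSi).isBounded.thickening
  have hDDo : closure G ⊆ Do := by
    refine (closure_minimal (subset_gun_Sout hg0 G) (isCompact_gun hSo).isClosed).trans ?_
    exact Metric.self_subset_thickening hso.1 _
  have hDDo' : D ⊆ Do := hDG.trans (subset_closure.trans hDDo)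
  have hDiD : closure Di ⊆ D := by
    have h1 : Di ⊆ {z | g ≤ dd D z} := fun z hz => by
      have h' := gun_Sin_subset (s := si) (by linarith [hsi.2]) D hz
      have h'' : g < dd D z := h'
      exact h''.le
    have h2 : closure Di ⊆ {z | g ≤ dd D z} :=
      closure_minimal h1 (isClosed_le continuous_const (dd_cont D))
    intro z hz
    have h3 : g ≤ dd D z := h2 hz
    exact (dd_pos hop hb).1 (by linarith)
  have hDisub : Di ⊆ D := subset_closure.trans hDiD
  have h4g : {z | 4 * g < dd D z} ⊆ Di := (subset_gun_Sin hg0 D).trans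
    (Metric.self_subset_thickening hsi.1 _)
  have hpi : TestOn Di p := hT3.mono ((inner_mono hg3).trans h4g)
  have hmi : TestOn Di m := hT4.mono ((inner_mono hg4).trans h4g)
  have hψo : TestOn Do ψ := hψT.mono hDDo'
  have hψi : TestOn Di ψ := hpi.add hmi
  -- values of V
  have v1 : V D ψ - η ≤ V Di ψ := by
    have h1 := V_mono hDib ((inner_mono hg1).trans h4g) hψT
    linarith
  have v2 : V Di ψ ≤ V D ψ := V_mono hb hDisub hψT
  have v3 : V D φ - η ≤ V Di φ := by
    have h1 := V_mono hDib ((inner_mono hg2).trans h4g) hφ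
    linarith
  have v4 : V Di φ ≤ V D φ := V_mono hb hDisub hφ
  have v5 : V Do ψ ≤ V D ψ + η := by
    have h1 : Do ⊆ Metric.thickening s5 G :=
      (gun_Sout_subset (s := so) (by linarith [hso.2]) G).trans
        (Metric.thickening_mono (by linarith) G)
    exact (V_mono hbG.thickening h1 hψT).trans hV5
  have v6 : V D ψ ≤ V Do ψ := V_mono hDob hDDo' hψT
  have w1 : dist (gm (κ * V Di ψ) k) (gm (κ * V D ψ) k) < ε / 8 :=
    hc1 _ (by rw [Real.dist_eq, abs_lt]; constructor <;> linarith)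
  have w2 : dist (gm (κ * V Do ψ) k) (gm (κ * V D ψ) k) < ε / 8 :=
    hc1 _ (by rw [Real.dist_eq, abs_lt]; constructor <;> linarith)
  have w3 : dist (gm (κ * V Di φ) k) (gm (κ * V D φ) k) < ε / 4 :=
    hc2 _ (by rw [Real.dist_eq, abs_lt]; constructor <;> linarith)
  -- the limits
  have l1 := signed (κ := κ) hδ hDib hGi hpi hmi hp0 hm0 k
  rw [← hφe] at l1
  have l2 := hGi ψ hψi hψ0 k
  have l3 := hGo ψ hψo hψ0 k
  have n1 : ∀ᶠ n in (U : Filter ℕ), Fs (δ n) Di ⊆ F n :=
    hU (hin Di Metric.isOpen_thickening hDib hDiD)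
  have n2 : ∀ᶠ n in (U : Filter ℕ), F n ⊆ Fs (δ n) Do :=
    hU (hout Do Metric.isOpen_thickening hDob hDDo)
  filter_upwards [n1, n2, Metric.tendsto_nhds.1 l1 (ε / 8) (by positivity),
    Metric.tendsto_nhds.1 l2 (ε / 8) (by positivity),
    Metric.tendsto_nhds.1 l3 (ε / 8) (by positivity)] with n m1 m2 d1 d2 d3
  have sq := squeeze_fin hm (hδ n) hp.cs hm'.cs hp0 hm0 m1 m2 k
  have e1 : ze c (F n) (fun x => zf (F n) (δ n) φ x ^ k)
      = ze c (F n) (fun x => (hv (δ n) p (vh x) - hv (δ n) m (vh x)) ^ k) := by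
    refine ze_congr' c (F n) fun x hx => ?_
    rw [zf_eq_hv hx]
    congr 1
    have h1 := hv_add (hδ n) hp.cs hm'.cs 1 (-1) (vh x)
    have h2 : (fun z => 1 * p z + (-1) * m z) = φ := by funext z; rw [hpm z]; ring
    rw [h2] at h1
    rw [h1]; ring
  have e2 : ∀ ω, hv (δ n) ψ ω = hv (δ n) p ω + hv (δ n) m ω := by
    intro ω
    have h1 := hv_add (hδ n) hp.cs hm'.cs 1 1 ω
    have h2 : (fun z => 1 * p z + 1 * m z) = ψ := by funext z; rw [hψ]; ring
    rw [h2] at h1
    rw [h1]; ring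
  simp_rw [e2] at d2 d3
  rw [e1]
  unfold EE at d1 d2 d3
  rw [Real.dist_eq] at d1 d2 d3 w1 w2 w3 ⊢
  rw [abs_lt] at d1 d2 d3 w1 w2 w3 ⊢
  rw [abs_le] at sq
  constructor <;> linarith [sq.1, sq.2, d1.1, d1.2, d2.1, d2.2, d3.1, d3.2, w1.1, w1.2, w2.1,
    w2.2, w3.1, w3.2]


end Vale.Agent.P145.H821
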